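import Vale.Agent.P256.Defs

/-! P256: semidefinite lifts of a given size. -/

namespace Vale.Agent.N256

/-- `S` has a semidefinite lift by `m × m` matrices: `S` is the set of all `x` such that
`A₀ + ∑ x_i A_i + ∑ u_j B_j` is positive semidefinite for some `u`, with real symmetric
`m × m` matrices and any finite number `a` of additional variables. -/
def HasLift {n : ℕ} (m : ℕ) (S : Set (Fin n → ℝ)) : Prop :=
  ∃ (a : ℕ) (A₀ : Matrix (Fin m) (Fin m) ℝ) (A : Fin n → Matrix (Fin m) (Fin m) ℝ)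
    (B : Fin a → Matrix (Fin m) (Fin m) ℝ),
    A₀.IsSymm ∧ (∀ i, (A i).IsSymm) ∧ (∀ j, (B j).IsSymm) ∧
    S = {x | ∃ u : Fin a → ℝ, (A₀ + ∑ i, x i • A i + ∑ j, u j • B j).PosSemidef}

end Vale.Agent.N256
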