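import Vale.Agent.N256.Ops
import Vale.Agent.P256.PL.Final

/-! P256: the counterexample lives in 221 variables. -/

namespace Vale.Agent.N256

open MvPolynomial Matrix Vale.Agent.P256 Vale.Agent.P256.PL Vale.Agent.P256.PL.Z

/-- The assembly, keeping track of the shape of the polynomial. -/
theorem final_at {k n : ℕ} {τ : Tens k ℝ} {U : Fin n → Matrix (Fin k) (Fin k) ℝ} {w : Fin n → ℝ}
    {G₀ : Fin k → Fin k → Fin k → ℝ} (hk : 2 ≤ k) (hτ : IsSymT τ) (hτ0 : τ 0 0 0 = 1)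
    (hpos : (yM τ).PosDef)
    (hX : ∀ i j l m, alt (Xt τ) i j l m = (yM τ).det * Rs U (-diagonal w) i j l m)
    (hdat : DataC U w G₀) :
    ∃ (Q : MvPolynomial (Option (Idx4 k)) ℝ) (N : E4 k ℝ) (e : Fin (dimN k) → ℝ),
      IsHyperbolic (pP Q N) e ∧ ¬ IsSpectrahedralShadow (hypCone (pP Q N) e) := by
  obtain ⟨W, l, θ, m, h, hθ, hm, hh, hRW, hlR, hθR, hhR, hsep, hK⟩ :=
    stmtA5 k n U w G₀ hk hdat
  obtain ⟨hBcl, hBsm⟩ := stmtA3 k
  obtain ⟨hBX, hBw⟩ := stmtA4 k hk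
  obtain ⟨Q, hQ, hQneg, hQdom⟩ := stmtA1 k m (BB k) W l (Rs U (-diagonal w)) h θ hBcl hBsm hm hh
    hRW hlR hθ hθR hhR hsep
  have hKsymm : ∀ V ∈ Submodule.span ℝ (Set.range U), V.IsSymm := by
    intro V hV
    induction hV using Submodule.span_induction with
    | mem x hx =>
      obtain ⟨p, rfl⟩ := hx
      exact hdat.symm p
    | zero => exact isSymm_zero
    | add x y _ _ hx hy => exact hx.add hy
    | smul c x _ hx => exact hx.smul c
  obtain ⟨N, hN1, hN2⟩ := stmtA2 k m Q (Submodule.span ℝ (Set.range U)) l hm hQ.hom hQ.lead (by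
    intro V hV hV0
    obtain ⟨a1, a2, a3, a4⟩ := hK V hV hV0
    refine ⟨a3, fun σ hσ => hQdom _ (hBw V (hKsymm V hV)).2 a1 a2 a4 σ ?_⟩
    rwa [abs_of_pos a3])
  obtain ⟨E, hE, hEpos, hE0⟩ := stmtB4 k
  have hdetE : 0 < (yM E).det := hEpos.det_pos
  obtain ⟨sE, hsE⟩ : ∃ sE : ℝ, pairing N (Xt E) < sE * (yM E).det :=
    ⟨(pairing N (Xt E) + 1) / (yM E).det, by
      rw [div_mul_cancel₀ _ hdetE.ne']
      linarith⟩
  obtain ⟨L, hL1, hL2, hL3, hL4⟩ := stmtD5 k n τ U w hτ hτ0 hpos hdat.symm hdat.wpos hX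
  have hhyp := isHyp stmtB2 stmtB3 (BB k) Q N E sE (by omega) hQ hBsm hBX hN2 hE hEpos hE0 hsE
  refine ⟨Q, N, co E sE, hhyp, fun hsh => ?_⟩
  have hval : ∀ Λ : MvPolynomial (Fin k) ℝ →ₗ[ℝ] ℝ,
      eval (fun i => Λ (nu N i)) (pP Q N) = PL.pf Q N (tauL Λ (hat X))
        (Λ (quadN (fun i j l m => C (N i j l m)) (PL.sq X))) := by
    intro Λ
    unfold nu
    rw [L_co, eval_co (isSymT_tauL Λ _)]
  have hneg : eval (fun i => L (nu N i)) (pP Q N) < 0 := by
    rw [hval, hL3, pf_value (m := m) hQ.hom τ U w l L hX hL4 fun p =>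
      hN1 _ (Submodule.subset_span ⟨p, rfl⟩)]
    exact mul_neg_of_pos_of_neg (pow_pos hpos.det_pos _) hQneg
  obtain ⟨L', hL'1, hL'2, hL'3⟩ := exists_pert stmtC6 L hL1 hL2 (2 * m * (2 * k + 4) + 1) (nu N)
    (deg_nu N) (pP Q N) hneg
  have hw : 4 ≤ 2 * m * (2 * k + 4) + 1 := by nlinarith
  have hfin := stmtC k (dimN k) _ (2 * m * (2 * k + 4)) (pP Q N) (hypCone (pP Q N) (co E sE))
    (nu N) L' (pP_homog Q N hQ.hom) hsh
    (fun u hu => cone_nonneg (pP_homog Q N hQ.hom) hhyp.2.1 hu)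
    (fun x => by
      rw [eval_nu]
      exact moment_mem stmtB3 (BB k) Q N E sE hQ hN2 hE hEpos hE0 hsE x)
    (fun i => (deg_nu N i).trans hw) hL'1 hL'2 ?_
  · linarith
  · intro ξ ε
    rw [hval L']
    have h5 : (fun i => L' (aeval (fun j => C (ξ j) + C ε * X j) (nu N i))) =
        co (tauL L' (hat fun j => C (ξ j) + C ε * X j))
          (L' (quadN (fun i j l m => C (N i j l m)) (PL.sq fun j => C (ξ j) + C ε * X j))) := by
      rw [← L_co]
      funext i
      rw [subst_nu]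
    rw [h5, eval_co (isSymT_tauL L' _)]
    exact stmtF k m Q N L' ξ ε hQ.hom

theorem dataC : DataC D.UD D.wD D.G0D := by
  have hc : D.RigidInt := D.rigidInt_of D.TB.transfer (fun i x _ => D.evT_rowT i x) D.rowZ_lt
    D.semR653 D.cert7
  refine ⟨by norm_num, fun p => ?_, D.wD_pos, D.isG0, fun h => ?_, D.sol, D.rigid_of hc⟩
  · ext i j
    simp only [transpose_apply, D.UD, D.Uz_symm p j i]
  · have h1 : D.G0D 0 0 3 = 0 := by
      rw [h]
      rfl
    have e : D.G0D 0 0 3 = (D.GzM 0 0 3 : ℝ) := rfl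
    rw [e] at h1
    have h2 : D.GzM 0 0 3 = 0 := by exact_mod_cast h1
    exact D.G0_pin h2

/-- Sorted triples. -/
abbrev Srt : Type := {q : Fin 10 × Fin 10 × Fin 10 // q.1 ≤ q.2.1 ∧ q.2.1 ≤ q.2.2}

theorem card_Srt : Fintype.card (Option Srt) = 221 := by
  rw [Fintype.card_option]
  have : Fintype.card Srt = 220 := by decide +kernel
  rw [this]

theorem symT_ext {τ τ' : Tens 9 ℝ} (h : IsSymT τ) (h' : IsSymT τ')
    (H : ∀ a b c : Fin 10, a ≤ b → b ≤ c → τ a b c = τ' a b c) : τ = τ' := by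
  have k1 : ∀ a b c : Fin 10, a ≤ b → a ≤ c → τ a b c = τ' a b c := by
    intro a b c hb hc
    rcases le_total b c with h1 | h1
    · exact H a b c hb h1
    · rw [h.2, h'.2]
      exact H a c b hc h1
  funext a b c
  rcases le_total a b with h1 | h1
  · rcases le_total a c with h2 | h2
    · exact k1 a b c h1 h2
    · rw [h.2, h'.2, h.1, h'.1]
      exact k1 c a b h2 (h2.trans h1)
  · rcases le_total b c with h2 | h2
    · rw [h.1, h'.1]
      exact k1 b a c h1 h2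
    · rw [h.2, h'.2, h.1, h'.1]
      exact k1 c a b (h2.trans h1) h2

/-- The coordinates on symmetric tensors. -/
noncomputable def BS : (Fin (dimN 9) → ℝ) →ₗ[ℝ] (Option Srt → ℝ) where
  toFun x o := o.elim (sOf x) fun q => symT (tOf x) q.1.1 q.1.2.1 q.1.2.2
  map_add' x y := by
    funext o
    cases o with
    | none => rfl
    | some q =>
      simp only [Option.elim, symT, tOf, Pi.add_apply, smul_eq_mul]
      ring
  map_smul' c x := by
    funext o
    cases o with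
    | none => rfl
    | some q =>
      simp only [Option.elim, symT, tOf, Pi.smul_apply, smul_eq_mul, RingHom.id_apply]
      ring

/-- A counterexample in 221 variables. -/
theorem exists_221 : ∃ (p : MvPolynomial (Fin 221) ℝ) (e : Fin 221 → ℝ),
    IsHyperbolic p e ∧ ¬ IsSpectrahedralShadow (hypCone p e) := by
  obtain ⟨Q, N, e, h1, h2⟩ := final_at (by norm_num) D.symT D.tau000 D.posDef D.alt_Xt_eq dataC
  let g : Option Srt ≃ Fin 221 := Fintype.equivFinOfCardEq card_Srt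
  obtain ⟨q, h3⟩ := descend h1 h2 (LinearMap.funLeft ℝ ℝ g.symm ∘ₗ BS) fun x y hxy => by
    have h4 : ∀ o, BS x o = BS y o := by
      intro o
      have h5 := congrFun hxy (g o)
      simpa [LinearMap.funLeft_apply] using h5
    rw [eval_pP, eval_pP]
    congr 1
    · exact symT_ext (isSymT_symT _) (isSymT_symT _) fun a b c hab hbc =>
        h4 (some ⟨(a, b, c), hab, hbc⟩)
    · exact h4 none
  exact ⟨q, _, h3⟩

/-- Irreducible counterexamples with pointed cones in all large dimensions and degrees. -/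
theorem good_all : ∃ d₀ : ℕ, ∀ n d : ℕ, (221 ≤ n ∧ d = d₀) ∨ (223 ≤ n ∧ d₀ ≤ d) → Good n d := by
  obtain ⟨p, e, h1, h2⟩ := exists_221
  obtain ⟨k, hk, d₀, h⟩ := exists_good 221 p e h1 h2
  refine ⟨d₀, fun n d hnd => ?_⟩
  rcases hnd with ⟨hn, rfl⟩ | ⟨hn, hd⟩
  · exact h.mono (by omega)
  · obtain ⟨j, rfl⟩ := Nat.exists_eq_add_of_le hd
    exact (h.deg j).mono (by omega)

end Vale.Agent.N256
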