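import Vale.Agent.P256.Bdl.B1
import Vale.Agent.N256.Defs
import Mathlib.Analysis.Convex.Cone.Extension
import Mathlib.Analysis.LocallyConvex.Separation

/-! P256: limits of sets with semidefinite lifts of bounded size have semidefinite lifts. -/

namespace Vale.Agent.N256

open Matrix Filter Topology Vale.Agent.P256

variable {n m : ℕ}

/-- Elimination with pivoting: a finite family of vectors is spanned by some of its members with
coefficients bounded in terms of the dimension only. -/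
theorem pivot (S : Finset (Fin m)) : ∃ C : ℝ, 0 ≤ C ∧
    ∀ (κ : Type) [Fintype κ] [Nonempty κ] (r : κ → Fin m → ℝ), (∀ k, ∀ i, i ∉ S → r k i = 0) →
      ∃ (w : Fin m → κ) (c : κ → Fin m → ℝ), (∀ k l, |c k l| ≤ C) ∧
        ∀ k, r k = ∑ l ∈ S, c k l • r (w l) := by
  classical
  induction S using Finset.induction_on with
  | empty =>
    refine ⟨0, le_rfl, fun κ _ _ r hr => ⟨fun _ => Classical.arbitrary κ, fun _ _ => 0,
      by simp, fun k => ?_⟩⟩
    funext i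
    simp [hr k i]
  | insert i0 S hi0 ih =>
    obtain ⟨C, hC, ih⟩ := ih
    refine ⟨1 + (S.card + 1) * C, by positivity, fun κ _ _ r hr => ?_⟩
    obtain ⟨k0, -, hk0⟩ := Finset.exists_max_image Finset.univ (fun k => |r k i0|)
      Finset.univ_nonempty
    let a : κ → ℝ := fun k => r k i0 / r k0 i0
    have ha : ∀ k, |a k| ≤ 1 := by
      intro k
      simp only [a, abs_div]
      exact div_le_one_of_le₀ (hk0 k (Finset.mem_univ k)) (abs_nonneg _)
    have ha0 : ∀ k, r k i0 - a k * r k0 i0 = 0 := by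
      intro k
      by_cases h : r k0 i0 = 0
      · have h1 := hk0 k (Finset.mem_univ k)
        rw [h, abs_zero] at h1
        rw [h, abs_nonpos_iff.1 h1]
        ring
      · simp only [a]
        field_simp
        ring
    obtain ⟨w, c, hc, hw⟩ := ih κ (fun k => r k - a k • r k0) (by
      intro k i hi
      by_cases h : i = i0
      · rw [h]
        exact ha0 k
      · have h1 : i ∉ insert i0 S := by simp [h, hi]
        simp [hr k i h1, hr k0 i h1])
    refine ⟨Function.update w i0 k0,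
      fun k => Function.update (c k) i0 (a k - ∑ l ∈ S, c k l * a (w l)), ?_, ?_⟩
    · intro k l
      beta_reduce
      by_cases h : l = i0
      · rw [h, Function.update_self]
        have h1 : |∑ l ∈ S, c k l * a (w l)| ≤ S.card * C := by
          refine (Finset.abs_sum_le_sum_abs _ _).trans ?_
          have h2 : ∀ l ∈ S, |c k l * a (w l)| ≤ C := by
            intro l _
            rw [abs_mul]
            have := mul_le_mul (hc k l) (ha (w l)) (abs_nonneg _) hC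
            linarith
          have h3 := Finset.sum_le_card_nsmul S _ C h2
          rwa [nsmul_eq_mul] at h3
        have h2 := abs_sub (a k) (∑ l ∈ S, c k l * a (w l))
        have h3 := ha k
        nlinarith
      · rw [Function.update_of_ne h]
        have h1 := hc k l
        have h2 : (0 : ℝ) ≤ S.card * C := by positivity
        nlinarith
    · intro k
      beta_reduce
      rw [Finset.sum_insert hi0, Function.update_self, Function.update_self]
      have h1 : ∑ l ∈ S, Function.update (c k) i0 (a k - ∑ l ∈ S, c k l * a (w l)) l •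
          r (Function.update w i0 k0 l) = ∑ l ∈ S, c k l • r (w l) := by
        refine Finset.sum_congr rfl fun l hl => ?_
        have h : l ≠ i0 := fun h => hi0 (h ▸ hl)
        rw [Function.update_of_ne h, Function.update_of_ne h]
      rw [h1]
      have h2 := hw k
      simp only [smul_sub, Finset.sum_sub_distrib, smul_smul] at h2
      rw [← Finset.sum_smul] at h2
      rw [sub_smul]
      have h3 : r k = (r k - a k • r k0) + a k • r k0 := by abel
      rw [h3, h2]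
      abel

/-- The quadratic form of a matrix at `z`, as a linear function of the matrix. -/
def qq (z : Fin m → ℝ) : Matrix (Fin m) (Fin m) ℝ →ₗ[ℝ] ℝ where
  toFun M := z ⬝ᵥ M *ᵥ z
  map_add' M N := by rw [add_mulVec, dotProduct_add]
  map_smul' c M := by rw [smul_mulVec, dotProduct_smul]; rfl

theorem qq_vec (z v w : Fin m → ℝ) : qq z (vecMulVec v w) = (v ⬝ᵥ z) * (w ⬝ᵥ z) := by
  change z ⬝ᵥ (vecMulVec v w) *ᵥ z = _
  simp only [dotProduct, mulVec, vecMulVec_apply, Finset.mul_sum, Finset.sum_mul]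
  rw [Finset.sum_comm]
  refine Finset.sum_congr rfl fun i _ => Finset.sum_congr rfl fun j _ => ?_
  ring

theorem qq_nonneg {M : Matrix (Fin m) (Fin m) ℝ} (h : M.PosSemidef) (z : Fin m → ℝ) :
    0 ≤ qq z M := by
  have := h.dotProduct_mulVec_nonneg z
  rwa [star_trivial] at this

theorem psd_of_qq {M : Matrix (Fin m) (Fin m) ℝ} (hM : M.IsSymm) (h : ∀ z, 0 ≤ qq z M) :
    M.PosSemidef := by
  rw [posSemidef_iff_dotProduct_mulVec]
  refine ⟨?_, fun z => ?_⟩
  · rw [IsHermitian, conjTranspose_eq_transpose_of_trivial]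
    exact hM
  · rw [star_trivial]
    exact h z

theorem psd_rows {M : Matrix (Fin m) (Fin m) ℝ} (h : M.PosSemidef) :
    ∃ R : Fin m → Fin m → ℝ, M = ∑ i, vecMulVec (R i) (R i) := by
  obtain ⟨B, hB⟩ := psd_factor h
  refine ⟨fun i => B i, ?_⟩
  rw [hB]
  ext a b
  simp [Matrix.mul_apply, Matrix.sum_apply, vecMulVec_apply]

section aff

variable {a : ℕ} (A₀ : Matrix (Fin m) (Fin m) ℝ) (A : Fin n → Matrix (Fin m) (Fin m) ℝ)
  (B : Fin a → Matrix (Fin m) (Fin m) ℝ)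

/-- The homogenised pencil. -/
def aff (t : ℝ) (x : Fin n → ℝ) (u : Fin a → ℝ) : Matrix (Fin m) (Fin m) ℝ :=
  t • A₀ + ∑ i, x i • A i + ∑ j, u j • B j

theorem aff_add (t t' : ℝ) (x x' : Fin n → ℝ) (u u' : Fin a → ℝ) :
    aff A₀ A B (t + t') (x + x') (u + u') = aff A₀ A B t x u + aff A₀ A B t' x' u' := by
  simp only [aff, Pi.add_apply, add_smul, Finset.sum_add_distrib]
  abel

theorem aff_smul (c t : ℝ) (x : Fin n → ℝ) (u : Fin a → ℝ) :
    aff A₀ A B (c * t) (c • x) (c • u) = c • aff A₀ A B t x u := by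
  simp only [aff, Pi.smul_apply, smul_eq_mul, smul_add, Finset.smul_sum, mul_smul]

theorem aff_zero : aff A₀ A B 0 0 0 = 0 := by
  simp [aff]

theorem aff_one (x : Fin n → ℝ) (u : Fin a → ℝ) :
    aff A₀ A B 1 x u = A₀ + ∑ i, x i • A i + ∑ j, u j • B j := by
  rw [aff, one_smul]

theorem aff_sum {κ : Type} (s : Finset κ) (x : κ → Fin n → ℝ) (u : κ → Fin a → ℝ) :
    aff A₀ A B s.card (∑ k ∈ s, x k) (∑ k ∈ s, u k) = ∑ k ∈ s, aff A₀ A B 1 (x k) (u k) := by
  classical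
  induction s using Finset.induction_on with
  | empty => simpa using aff_zero A₀ A B
  | insert k s hk ih =>
    rw [Finset.sum_insert hk, Finset.sum_insert hk, Finset.sum_insert hk, ← ih, ← aff_add,
      Finset.card_insert_of_notMem hk]
    congr 1
    push_cast
    ring

variable {A₀ A B}

theorem aff_symm (h₀ : A₀.IsSymm) (hA : ∀ i, (A i).IsSymm) (hB : ∀ j, (B j).IsSymm)
    (t : ℝ) (x : Fin n → ℝ) (u : Fin a → ℝ) : (aff A₀ A B t x u).IsSymm := by
  unfold aff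
  rw [IsSymm, transpose_add, transpose_add, transpose_smul, transpose_sum, transpose_sum, h₀.eq]
  congr 1
  · congr 1
    exact Finset.sum_congr rfl fun i _ => by rw [transpose_smul, (hA i).eq]
  · exact Finset.sum_congr rfl fun i _ => by rw [transpose_smul, (hB i).eq]

/-- The matrices whose form is dominated by the form of `P`. -/
def domV (P : Matrix (Fin m) (Fin m) ℝ) : Submodule ℝ (Matrix (Fin m) (Fin m) ℝ) where
  carrier := {N | ∃ c : ℝ, ∀ z, |qq z N| ≤ c * qq z P}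
  add_mem' := by
    rintro N N' ⟨c, hc⟩ ⟨c', hc'⟩
    refine ⟨c + c', fun z => ?_⟩
    rw [map_add, add_mul]
    exact (abs_add_le _ _).trans (add_le_add (hc z) (hc' z))
  zero_mem' := ⟨0, fun z => by simp⟩
  smul_mem' := by
    rintro r N ⟨c, hc⟩
    refine ⟨|r| * c, fun z => ?_⟩
    rw [map_smul, smul_eq_mul, abs_mul, mul_assoc]
    exact mul_le_mul_of_nonneg_left (hc z) (abs_nonneg r)

/-- The ordering cone used in the extension argument. -/
def posC (P : Matrix (Fin m) (Fin m) ℝ) (n : ℕ) : PointedCone ℝ (domV P × ℝ × (Fin n → ℝ)) where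
  carrier := {z | (∀ v, 0 ≤ qq v (z.1 : Matrix (Fin m) (Fin m) ℝ)) ∧ ‖z.2.2‖ ≤ z.2.1}
  add_mem' := by
    rintro z z' ⟨h1, h2⟩ ⟨h1', h2'⟩
    refine ⟨fun v => ?_, ?_⟩
    · change 0 ≤ qq v ((z.1 : Matrix (Fin m) (Fin m) ℝ) + z'.1)
      rw [map_add]
      exact add_nonneg (h1 v) (h1' v)
    · change ‖z.2.2 + z'.2.2‖ ≤ z.2.1 + z'.2.1
      exact (norm_add_le _ _).trans (add_le_add h2 h2')
  zero_mem' := ⟨fun v => by simp, by simp⟩
  smul_mem' := by
    rintro c z ⟨h1, h2⟩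
    refine ⟨fun v => ?_, ?_⟩
    · change 0 ≤ qq v (c.1 • (z.1 : Matrix (Fin m) (Fin m) ℝ))
      rw [map_smul]
      exact mul_nonneg c.2 (h1 v)
    · change ‖c.1 • z.2.2‖ ≤ c.1 * z.2.1
      rw [norm_smul, Real.norm_eq_abs, abs_of_nonneg c.2]
      exact mul_le_mul_of_nonneg_left h2 c.2

/-- The graph of the pencil. -/
def graphP (A₀ : Matrix (Fin m) (Fin m) ℝ) (A : Fin n → Matrix (Fin m) (Fin m) ℝ)
    (B : Fin a → Matrix (Fin m) (Fin m) ℝ) (P : Matrix (Fin m) (Fin m) ℝ) :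
    Submodule ℝ (domV P × ℝ × (Fin n → ℝ)) where
  carrier := {z | ∃ u, (z.1 : Matrix (Fin m) (Fin m) ℝ) = aff A₀ A B z.2.1 z.2.2 u}
  add_mem' := by
    rintro z z' ⟨u, hu⟩ ⟨u', hu'⟩
    refine ⟨u + u', ?_⟩
    change (z.1 : Matrix (Fin m) (Fin m) ℝ) + z'.1 = aff A₀ A B (z.2.1 + z'.2.1) (z.2.2 + z'.2.2) _
    rw [aff_add, hu, hu']
  zero_mem' := ⟨0, (aff_zero A₀ A B).symm⟩
  smul_mem' := by
    rintro c z ⟨u, hu⟩
    refine ⟨c • u, ?_⟩
    change c • (z.1 : Matrix (Fin m) (Fin m) ℝ) = aff A₀ A B (c * z.2.1) (c • z.2.2) _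
    rw [aff_smul, hu]

/-- Semidefinite duality for finitely many points, with an error term. -/
theorem ext_fun (h₀ : A₀.IsSymm) (hA : ∀ i, (A i).IsSymm) (hB : ∀ j, (B j).IsSymm)
    {κ : Type} [Fintype κ] (x : κ → Fin n → ℝ) (u : κ → Fin a → ℝ) (hx : ∀ k, ‖x k‖ ≤ 1)
    (hu : ∀ k, (aff A₀ A B 1 (x k) (u k)).PosSemidef) (u0 : Fin a → ℝ)
    (hu0 : (aff A₀ A B 1 0 u0).PosSemidef) (f : (Fin n → ℝ) →ₗ[ℝ] ℝ) {η : ℝ}
    (hf : ∀ y v, ‖y‖ ≤ 1 → (aff A₀ A B 1 y v).PosSemidef → -η ≤ f y) :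
    ∃ g : Matrix (Fin m) (Fin m) ℝ →ₗ[ℝ] ℝ,
      (∀ (N : Matrix (Fin m) (Fin m) ℝ) (c : ℝ), (∀ z, 0 ≤ qq z N) →
        (∀ z, qq z N ≤ c * qq z (aff A₀ A B 1 0 u0 + ∑ k, aff A₀ A B 1 (x k) (u k))) → 0 ≤ g N) ∧
      ∀ k, |f (x k) - g (aff A₀ A B 1 (x k) (u k))| ≤ η := by
  obtain ⟨P, hP⟩ : ∃ P, P = aff A₀ A B 1 0 u0 + ∑ k, aff A₀ A B 1 (x k) (u k) := ⟨_, rfl⟩
  rw [← hP]
  have hsum : ∀ z, qq z P = qq z (aff A₀ A B 1 0 u0) + ∑ k, qq z (aff A₀ A B 1 (x k) (u k)) := by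
    intro z
    rw [hP, map_add, map_sum]
  have hs0 : ∀ z, 0 ≤ ∑ k, qq z (aff A₀ A B 1 (x k) (u k)) := fun z =>
    Finset.sum_nonneg fun k _ => qq_nonneg (hu k) z
  have hP0 : ∀ z, 0 ≤ qq z P := fun z => by
    rw [hsum]
    exact add_nonneg (qq_nonneg hu0 z) (hs0 z)
  have hmem : ∀ (N : Matrix (Fin m) (Fin m) ℝ) (c : ℝ), (∀ z, 0 ≤ qq z N) →
      (∀ z, qq z N ≤ c * qq z P) → N ∈ domV P := fun N c h1 h2 =>
    ⟨c, fun z => by rw [abs_of_nonneg (h1 z)]; exact h2 z⟩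
  have hPV : P ∈ domV P := hmem P 1 hP0 fun z => by rw [one_mul]
  have h0V : aff A₀ A B 1 0 u0 ∈ domV P := hmem _ 1 (qq_nonneg hu0) fun z => by
    rw [one_mul, hsum]
    linarith [hs0 z]
  have hkV : ∀ k, aff A₀ A B 1 (x k) (u k) ∈ domV P := fun k => hmem _ 1 (qq_nonneg (hu k))
    fun z => by
      rw [one_mul, hsum]
      have := Finset.single_le_sum (f := fun k => qq z (aff A₀ A B 1 (x k) (u k)))
        (fun k _ => qq_nonneg (hu k) z) (Finset.mem_univ k)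
      linarith [qq_nonneg hu0 z]
  let f0 : (domV P × ℝ × (Fin n → ℝ)) →ₗ[ℝ] ℝ :=
    f ∘ₗ (LinearMap.snd ℝ ℝ (Fin n → ℝ)) ∘ₗ (LinearMap.snd ℝ (domV P) _) +
      η • (LinearMap.fst ℝ ℝ (Fin n → ℝ)) ∘ₗ (LinearMap.snd ℝ (domV P) _)
  have hf0 : ∀ z, f0 z = f z.2.2 + η * z.2.1 := fun z => rfl
  obtain ⟨g0, hg1, hg2⟩ := riesz_extension (posC P n) (f0.toPMap (graphP A₀ A B P)) (by
    rintro ⟨z, v, hv⟩ ⟨h1, h2⟩
    change 0 ≤ f0 z
    change ∀ v, 0 ≤ qq v (z.1 : Matrix (Fin m) (Fin m) ℝ) at h1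
    change ‖z.2.2‖ ≤ z.2.1 at h2
    rw [hf0]
    rcases ((norm_nonneg _).trans h2).eq_or_lt with h | h
    · have h3 : z.2.2 = 0 := norm_le_zero_iff.1 (h ▸ h2)
      rw [h3, ← h, map_zero]
      simp
    · have h3 := hf (z.2.1⁻¹ • z.2.2) (z.2.1⁻¹ • v) (by
        rw [norm_smul, Real.norm_eq_abs, abs_of_pos (inv_pos.2 h), inv_mul_le_iff₀ h, mul_one]
        exact h2) (by
        have h4 := aff_smul A₀ A B z.2.1⁻¹ z.2.1 z.2.2 v
        rw [inv_mul_cancel₀ h.ne'] at h4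
        rw [h4, ← hv]
        refine PosSemidef.smul (psd_of_qq ?_ h1) (inv_pos.2 h).le
        rw [hv]
        exact aff_symm h₀ hA hB _ _ _)
      rw [map_smul, smul_eq_mul, le_inv_mul_iff₀ h] at h3
      linarith) (by
    rintro ⟨N, t, y⟩
    obtain ⟨c, hc⟩ := N.2
    let l : ℝ := |c| + ‖y‖ + |t|
    have hl0 : 0 ≤ l := by positivity
    have hz : ((⟨P, hPV⟩, (Fintype.card κ : ℝ) + 1, ∑ k, x k) : domV P × ℝ × (Fin n → ℝ)) ∈
        graphP A₀ A B P := by
      refine ⟨∑ k, u k + u0, ?_⟩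
      have h1 := aff_add A₀ A B (Finset.univ : Finset κ).card 1 (∑ k, x k) 0 (∑ k, u k) u0
      rw [add_zero, aff_sum, Finset.card_univ] at h1
      change P = _
      rw [h1, hP, add_comm]
    refine ⟨⟨l • _, (graphP A₀ A B P).smul_mem l hz⟩, fun v => ?_, ?_⟩
    · change 0 ≤ qq v (l • P + (N : Matrix (Fin m) (Fin m) ℝ))
      rw [map_add, map_smul, smul_eq_mul]
      have h1 := (abs_le.1 (hc v)).1
      have h2 : c ≤ l := by
        have := le_abs_self c
        have := abs_nonneg t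
        have := norm_nonneg y
        simp only [l]
        linarith
      have h3 := mul_le_mul_of_nonneg_right h2 (hP0 v)
      linarith
    · change ‖l • ∑ k, x k + y‖ ≤ l * ((Fintype.card κ : ℝ) + 1) + t
      have h1 : ‖∑ k, x k‖ ≤ Fintype.card κ := by
        refine (norm_sum_le _ _).trans ?_
        have h3 := Finset.sum_le_card_nsmul Finset.univ (fun k => ‖x k‖) 1 fun k _ => hx k
        rwa [nsmul_eq_mul, mul_one, Finset.card_univ] at h3
      have h2 := norm_add_le (l • ∑ k, x k) y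
      rw [norm_smul, Real.norm_eq_abs, abs_of_nonneg hl0] at h2
      have h3 := mul_le_mul_of_nonneg_left h1 hl0
      have h4 := neg_abs_le t
      have h5 := abs_nonneg c
      have h6 : l = |c| + ‖y‖ + |t| := rfl
      nlinarith)
  obtain ⟨g, hg⟩ := LinearMap.exists_extend (g0 ∘ₗ LinearMap.inl ℝ (domV P) (ℝ × (Fin n → ℝ)))
  have hgN : ∀ N : domV P, g N = g0 (N, 0, 0) := fun N => LinearMap.congr_fun hg N
  have hpos : ∀ N : domV P, (∀ z, 0 ≤ qq z (N : Matrix (Fin m) (Fin m) ℝ)) → 0 ≤ g N := by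
    intro N hN
    rw [hgN]
    exact hg2 _ ⟨hN, by simp⟩
  have hsplit : ∀ (N : domV P) (y : Fin n → ℝ), g0 (N, 1, y) = g N + g0 (0, 1, y) := by
    intro N y
    rw [hgN, ← map_add]
    congr 1
    simp
  have hval : ∀ (N : domV P) (y : Fin n → ℝ) (v : Fin a → ℝ),
      (N : Matrix (Fin m) (Fin m) ℝ) = aff A₀ A B 1 y v → g0 (N, 1, y) = f y + η := by
    intro N y v hv
    have h1 := hg1 ⟨(N, 1, y), v, hv⟩
    have h2 := hf0 (N, 1, y)
    rw [mul_one] at h2
    exact h1.trans h2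
  refine ⟨g, fun N c h1 h2 => hpos ⟨N, hmem N c h1 h2⟩ h1, fun k => ?_⟩
  have e1 := hval ⟨_, h0V⟩ 0 u0 rfl
  rw [hsplit, map_zero] at e1
  have e2 := hpos ⟨_, h0V⟩ (qq_nonneg hu0)
  have e3 := hval ⟨_, hkV k⟩ (x k) (u k) rfl
  rw [hsplit] at e3
  have e4 : 0 ≤ g0 (0, 1, x k) := hg2 _ ⟨fun v => by simp, hx k⟩
  have e5 : 0 ≤ g0 (0, 1, -x k) := hg2 _ ⟨fun v => by simp, by
    change ‖-x k‖ ≤ 1
    rw [norm_neg]
    exact hx k⟩
  have e6 : g0 (0, 1, x k) + g0 (0, 1, -x k) = g0 (0, 1, 0) + g0 (0, 1, 0) := by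
    rw [← map_add, ← map_add]
    congr 1
    simp
  simp only at e1 e2 e3
  rw [abs_le]
  constructor <;> linarith

end aff

/-- The form of an array. -/
def form (b : Fin m → Fin m → ℝ) (z : Fin m → ℝ) : ℝ := ∑ l, ∑ l', z l * z l' * b l l'

theorem vec_comb (g : Matrix (Fin m) (Fin m) ℝ →ₗ[ℝ] ℝ) (r : Fin m → Fin m → ℝ) (z : Fin m → ℝ) :
    g (vecMulVec (∑ l, z l • r l) (∑ l, z l • r l)) =
      form (fun l l' => g (vecMulVec (r l) (r l'))) z := by
  have h : vecMulVec (∑ l, z l • r l) (∑ l, z l • r l) =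
      ∑ l, ∑ l', (z l * z l') • vecMulVec (r l) (r l') := by
    ext a b
    simp only [vecMulVec_apply, Finset.sum_apply, Pi.smul_apply, smul_eq_mul, Matrix.sum_apply,
      Matrix.smul_apply, Finset.sum_mul_sum]
    refine Finset.sum_congr rfl fun i _ => Finset.sum_congr rfl fun j _ => ?_
    ring
  rw [h]
  simp only [map_sum, map_smul, smul_eq_mul, form]

/-- Bounded approximate factorisation for finitely many points. -/
theorem fact_fin (m : ℕ) : ∃ C : ℝ, ∀ (n : ℕ) (S : Set (Fin n → ℝ)), HasLift m S → 0 ∈ S →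
    ∀ (κ : Type) [Fintype κ] (x : κ → Fin n → ℝ), (∀ k, x k ∈ S) → (∀ k, ‖x k‖ ≤ 1) →
    ∃ c : κ → Fin m → Fin m → ℝ, (∀ k i l, |c k i l| ≤ C) ∧
      ∀ (f : (Fin n → ℝ) →L[ℝ] ℝ) (η : ℝ), ‖f‖ ≤ 1 → η ≤ 1 → (∀ y ∈ S, ‖y‖ ≤ 1 → -η ≤ f y) →
        ∃ b : Fin m → Fin m → ℝ, (∀ l l', |b l l'| ≤ 2) ∧ (∀ z, 0 ≤ form b z) ∧
          ∀ k, |f (x k) - ∑ i, form b (c k i)| ≤ η := by
  obtain ⟨C, -, hC⟩ := pivot (Finset.univ : Finset (Fin m))
  refine ⟨C, fun n S hS h0 κ _ x hx hx1 => ?_⟩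
  obtain ⟨a, A₀, A, B, h₀, hA, hB, rfl⟩ := hS
  simp only [← aff_one, Set.mem_ofPred_eq] at hx h0 ⊢
  choose u hu using hx
  obtain ⟨u0, hu0⟩ := h0
  choose R hR using fun k => psd_rows (hu k)
  let r : Option (κ × Fin m) → Fin m → ℝ := fun o => o.elim 0 fun q => R q.1 q.2
  obtain ⟨w, c, hc, hw⟩ := hC (Option (κ × Fin m)) r fun k i hi => absurd (Finset.mem_univ i) hi
  refine ⟨fun k i => c (some (k, i)), fun k i l => hc _ l, fun f η hf1 hη hf => ?_⟩
  obtain ⟨g, hg1, hg2⟩ := ext_fun h₀ hA hB x u hx1 hu u0 hu0 (f : (Fin n → ℝ) →ₗ[ℝ] ℝ) (η := η)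
    fun y v hy hv => hf y ⟨v, hv⟩ hy
  obtain ⟨P, hP⟩ : ∃ P, P = aff A₀ A B 1 0 u0 + ∑ k, aff A₀ A B 1 (x k) (u k) := ⟨_, rfl⟩
  rw [← hP] at hg1
  have hη0 : 0 ≤ η := by
    have := hf 0 ⟨u0, hu0⟩ (by simp)
    rw [map_zero] at this
    linarith
  have hk : ∀ k z, qq z (aff A₀ A B 1 (x k) (u k)) ≤ qq z P := by
    intro k z
    rw [hP, map_add, map_sum]
    have := Finset.single_le_sum (f := fun k => qq z (aff A₀ A B 1 (x k) (u k)))
      (fun k _ => qq_nonneg (hu k) z) (Finset.mem_univ k)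
    linarith [qq_nonneg hu0 z]
  have hP0 : ∀ z, 0 ≤ qq z P := by
    intro z
    rw [hP, map_add, map_sum]
    exact add_nonneg (qq_nonneg hu0 z) (Finset.sum_nonneg fun k _ => qq_nonneg (hu k) z)
  have hr : ∀ o z, (r o ⬝ᵥ z) * (r o ⬝ᵥ z) ≤ qq z P := by
    intro o z
    cases o with
    | none => simpa [r] using hP0 z
    | some q =>
      refine le_trans ?_ (hk q.1 z)
      rw [hR q.1, map_sum]
      simp only [qq_vec]
      exact Finset.single_le_sum (f := fun i => (R q.1 i ⬝ᵥ z) * (R q.1 i ⬝ᵥ z))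
        (fun i _ => mul_self_nonneg _) (Finset.mem_univ q.2)
  have hg0 : ∀ o, 0 ≤ g (vecMulVec (r o) (r o)) := fun o => hg1 _ 1
    (fun z => by rw [qq_vec]; exact mul_self_nonneg _) fun z => by
      rw [qq_vec, one_mul]
      exact hr o z
  have hgk : ∀ k, g (aff A₀ A B 1 (x k) (u k)) =
      ∑ i, g (vecMulVec (r (some (k, i))) (r (some (k, i)))) := by
    intro k
    rw [hR k, map_sum]
    rfl
  have hg2' : ∀ o, g (vecMulVec (r o) (r o)) ≤ 2 := by
    intro o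
    cases o with
    | none => simp [r]
    | some q =>
      have h1 := Finset.single_le_sum
        (f := fun i => g (vecMulVec (r (some (q.1, i))) (r (some (q.1, i)))))
        (fun i _ => hg0 _) (Finset.mem_univ q.2)
      rw [← hgk] at h1
      have h2 := (abs_le.1 (hg2 q.1)).1
      have h3 : f (x q.1) ≤ 1 := by
        have h4 := f.le_opNorm (x q.1)
        have h5 := mul_le_mul hf1 (hx1 q.1) (norm_nonneg _) zero_le_one
        have h6 := le_abs_self (f (x q.1))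
        rw [Real.norm_eq_abs] at h4
        linarith
      simp only [ContinuousLinearMap.coe_coe] at h2
      linarith
  refine ⟨fun l l' => g (vecMulVec (r (w l)) (r (w l'))), fun l l' => ?_, fun z => ?_, fun k => ?_⟩
  · have key : ∀ s : ℝ, s * s = 1 → 0 ≤ g (vecMulVec (r (w l)) (r (w l))) +
        g (vecMulVec (r (w l')) (r (w l'))) + (2 * s) * g (vecMulVec (r (w l)) (r (w l'))) := by
      intro s hs
      have h1 := hg1 (vecMulVec (r (w l)) (r (w l)) + vecMulVec (r (w l')) (r (w l')) +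
        (2 * s) • vecMulVec (r (w l)) (r (w l'))) 4 (fun z => by
          simp only [map_add, map_smul, qq_vec, smul_eq_mul]
          nlinarith [mul_self_nonneg (r (w l) ⬝ᵥ z + s * (r (w l') ⬝ᵥ z))]) (fun z => by
          simp only [map_add, map_smul, qq_vec, smul_eq_mul]
          nlinarith [mul_self_nonneg (r (w l) ⬝ᵥ z - s * (r (w l') ⬝ᵥ z)), hr (w l) z,
            hr (w l') z])
      simpa only [map_add, map_smul, smul_eq_mul] using h1
    have h1 := key 1 (by norm_num)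
    have h2 := key (-1) (by norm_num)
    have h3 := hg2' (w l)
    have h4 := hg2' (w l')
    rw [abs_le]
    constructor <;> linarith
  · rw [← vec_comb g (fun l => r (w l)) z]
    refine hg1 _ ((∑ l, z l ^ 2) * m) (fun v => by rw [qq_vec]; exact mul_self_nonneg _)
      fun v => ?_
    rw [qq_vec, sum_dotProduct]
    simp only [smul_dotProduct, smul_eq_mul]
    have h1 := Finset.sum_mul_sq_le_sq_mul_sq Finset.univ z fun l => r (w l) ⬝ᵥ v
    have h2 : ∑ l, (r (w l) ⬝ᵥ v) ^ 2 ≤ m * qq v P := by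
      have h3 := Finset.sum_le_card_nsmul Finset.univ (fun l => (r (w l) ⬝ᵥ v) ^ 2) (qq v P)
        fun l _ => by rw [sq]; exact hr _ v
      rwa [nsmul_eq_mul, Finset.card_univ, Fintype.card_fin] at h3
    have h4 : 0 ≤ ∑ l, z l ^ 2 := Finset.sum_nonneg fun l _ => sq_nonneg _
    have h5 := mul_le_mul_of_nonneg_left h2 h4
    rw [← sq, mul_assoc]
    exact h1.trans h5
  · have h1 := hg2 k
    rw [hgk] at h1
    have h2 : ∀ i, g (vecMulVec (r (some (k, i))) (r (some (k, i)))) =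
        form (fun l l' => g (vecMulVec (r (w l)) (r (w l')))) (c (some (k, i))) := by
      intro i
      rw [← vec_comb g (fun l => r (w l)), ← hw]
    simp only [h2] at h1
    exact h1

theorem form_pair_nonneg {b : Fin m → Fin m → ℝ} (hb : ∀ z, 0 ≤ form b z)
    {M : Matrix (Fin m) (Fin m) ℝ} (hM : M.PosSemidef) : 0 ≤ ∑ l, ∑ l', M l l' * b l l' := by
  obtain ⟨R, rfl⟩ := psd_rows hM
  simp only [Matrix.sum_apply, vecMulVec_apply, Finset.sum_mul]
  have h : ∑ l, ∑ l', ∑ i, R i l * R i l' * b l l' = ∑ i, form b (R i) := by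
    simp only [form]
    conv_rhs => rw [Finset.sum_comm]
    refine Finset.sum_congr rfl fun l _ => ?_
    rw [Finset.sum_comm]
  rw [h]
  exact Finset.sum_nonneg fun i _ => hb _

theorem gram_symm (c : Fin m → Fin m → ℝ) : (∑ i, vecMulVec (c i) (c i)).IsSymm := by
  ext a a'
  simp only [transpose_apply, Matrix.sum_apply, vecMulVec_apply]
  exact Finset.sum_congr rfl fun i _ => mul_comm _ _

theorem gram_psd (c : Fin m → Fin m → ℝ) : (∑ i, vecMulVec (c i) (c i)).PosSemidef := by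
  refine psd_of_qq (gram_symm c) fun z => ?_
  rw [map_sum]
  exact Finset.sum_nonneg fun i _ => by rw [qq_vec]; exact mul_self_nonneg _

theorem gram_pair (c b : Fin m → Fin m → ℝ) :
    ∑ i, form b (c i) = ∑ l, ∑ l', (∑ i, vecMulVec (c i) (c i)) l l' * b l l' := by
  simp only [form, Matrix.sum_apply, vecMulVec_apply, Finset.sum_mul]
  rw [Finset.sum_comm]
  refine Finset.sum_congr rfl fun l _ => ?_
  rw [Finset.sum_comm]

/-- The subspace of a factorisation. -/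
def factW {Y : Type} (φ : Y → (Fin n → ℝ) →L[ℝ] ℝ) (b : Y → Fin m → Fin m → ℝ) :
    Submodule ℝ ((Fin n → ℝ) × Matrix (Fin m) (Fin m) ℝ) where
  carrier := {z | z.2.IsSymm ∧ ∀ f, φ f z.1 = ∑ l, ∑ l', z.2 l l' * b f l l'}
  add_mem' := by
    rintro z z' ⟨h1, h2⟩ ⟨h1', h2'⟩
    refine ⟨h1.add h1', fun f => ?_⟩
    rw [Prod.fst_add, map_add, h2, h2']
    simp only [Prod.snd_add, Matrix.add_apply, add_mul, Finset.sum_add_distrib]
  zero_mem' := ⟨isSymm_zero, fun f => by simp⟩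
  smul_mem' := by
    rintro r z ⟨h1, h2⟩
    refine ⟨h1.smul r, fun f => ?_⟩
    rw [Prod.smul_fst, map_smul, h2]
    simp only [Prod.smul_snd, Matrix.smul_apply, smul_eq_mul, Finset.mul_sum, mul_assoc]

/-- Separation of a point from a closed convex cone by a functional of norm at most one. -/
theorem sep_cone {K : Set (Fin n → ℝ)} (hcl : IsClosed K)
    (hadd : ∀ x ∈ K, ∀ y ∈ K, x + y ∈ K) (hsm : ∀ c : ℝ, 0 ≤ c → ∀ x ∈ K, c • x ∈ K)
    (h0 : 0 ∈ K) {x : Fin n → ℝ} (hx : x ∉ K) :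
    ∃ f : (Fin n → ℝ) →L[ℝ] ℝ, ‖f‖ ≤ 1 ∧ (∀ y ∈ K, 0 ≤ f y) ∧ f x < 0 := by
  have hconv : Convex ℝ K := fun y hy z hz s t hs ht _ =>
    hadd _ (hsm s hs y hy) _ (hsm t ht z hz)
  obtain ⟨f, v, hf1, hf2⟩ := geometric_hahn_banach_point_closed hconv hcl hx
  have hv : v < 0 := by simpa using hf2 0 h0
  have hpos : ∀ y ∈ K, 0 ≤ f y := by
    intro y hy
    by_contra hneg
    rw [not_le] at hneg
    have h1 := hf2 _ (hsm (v / f y) (div_nonneg_of_nonpos hv.le hneg.le) y hy)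
    rw [map_smul, smul_eq_mul, div_mul_cancel₀ _ hneg.ne] at h1
    exact lt_irrefl _ h1
  have ht : 0 < ‖f‖ + 1 := by positivity
  refine ⟨(‖f‖ + 1)⁻¹ • f, ?_, fun y hy => mul_nonneg (inv_pos.2 ht).le (hpos y hy),
    mul_neg_of_pos_of_neg (inv_pos.2 ht) (hf1.trans hv)⟩
  rw [norm_smul, Real.norm_eq_abs, abs_of_pos (inv_pos.2 ht), inv_mul_le_iff₀ ht]
  linarith

/-- Points of the cone of small norm. -/
abbrev TT (K : Set (Fin n → ℝ)) : Type := {x : Fin n → ℝ // x ∈ K ∧ ‖x‖ ≤ 1 / 2}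

/-- Functionals of the dual cone of small norm. -/
abbrev YY (K : Set (Fin n → ℝ)) : Type :=
  {f : (Fin n → ℝ) →L[ℝ] ℝ // ‖f‖ ≤ 1 ∧ ∀ x ∈ K, 0 ≤ f x}

/-- A closed convex cone with an exact factorisation is a spectrahedral shadow. -/
theorem shadow_of_fact {K : Set (Fin n → ℝ)} (hcl : IsClosed K)
    (hadd : ∀ x ∈ K, ∀ y ∈ K, x + y ∈ K) (hsm : ∀ c : ℝ, 0 ≤ c → ∀ x ∈ K, c • x ∈ K)
    (h0 : 0 ∈ K) (c : TT K → Fin m → Fin m → ℝ) (b : YY K → Fin m → Fin m → ℝ)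
    (hb : ∀ f z, 0 ≤ form (b f) z) (h : ∀ x f, f.1 x.1 = ∑ i, form (b f) (c x i)) :
    IsSpectrahedralShadow K := by
  have hK : K = {x | ∃ M : Matrix (Fin m) (Fin m) ℝ,
      (x, M) ∈ factW (fun f : YY K => f.1) b ∧ M.PosSemidef} := by
    ext x
    constructor
    · intro hx
      have ht : 0 < 2 * ‖x‖ + 1 := by positivity
      obtain ⟨x0, hx0⟩ : ∃ x0 : TT K, x0.1 = (2 * ‖x‖ + 1)⁻¹ • x := ⟨⟨(2 * ‖x‖ + 1)⁻¹ • x,
        hsm _ (inv_pos.2 ht).le x hx, by
          rw [norm_smul, Real.norm_eq_abs, abs_of_pos (inv_pos.2 ht), inv_mul_le_iff₀ ht]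
          linarith⟩, rfl⟩
      have hm : (x0.1, ∑ i, vecMulVec (c x0 i) (c x0 i)) ∈ factW (fun f : YY K => f.1) b :=
        ⟨gram_symm _, fun f => (h x0 f).trans (gram_pair _ _)⟩
      have hm2 := Submodule.smul_mem _ (2 * ‖x‖ + 1) hm
      refine ⟨(2 * ‖x‖ + 1) • ∑ i, vecMulVec (c x0 i) (c x0 i), ?_, (gram_psd _).smul ht.le⟩
      have h1 : (2 * ‖x‖ + 1) • x0.1 = x := by
        rw [hx0, smul_smul, mul_inv_cancel₀ ht.ne', one_smul]
      rw [Prod.smul_mk, h1] at hm2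
      exact hm2
    · rintro ⟨M, hM, hMp⟩
      by_contra hx
      obtain ⟨f, hf1, hf2, hf3⟩ := sep_cone hcl hadd hsm h0 hx
      have h1 : f x = ∑ l, ∑ l', M l l' * b ⟨f, hf1, hf2⟩ l l' := hM.2 ⟨f, hf1, hf2⟩
      have h2 := form_pair_nonneg (hb ⟨f, hf1, hf2⟩) hMp
      linarith
  rw [hK]
  exact (CShad.lift (factW (fun f : YY K => f.1) b) fun z hz => hz.1).shadow

/-- Compactness: bounded approximate factorisations of all finite parts give a factorisation. -/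
theorem fact_compact {T Y : Type} [Nonempty T] (φ : T → Y → ℝ) (C : ℝ)
    (H : ∀ (F : Finset T) (G : Finset Y) (j : ℕ), ∃ (c : F → Fin m → Fin m → ℝ)
      (b : G → Fin m → Fin m → ℝ), (∀ x i l, |c x i l| ≤ C) ∧ (∀ f i l, |b f i l| ≤ 2) ∧
      (∀ f z, 0 ≤ form (b f) z) ∧
      ∀ x f, |φ x.1 f.1 - ∑ i, form (b f) (c x i)| ≤ 2 / ((j : ℝ) + 2)) :
    ∃ (c : T → Fin m → Fin m → ℝ) (b : Y → Fin m → Fin m → ℝ), (∀ f z, 0 ≤ form (b f) z) ∧
      ∀ x f, φ x f = ∑ i, form (b f) (c x i) := by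
  classical
  have htc : ∀ q : T × Y × ℕ × (Fin m → ℝ), IsClosed
      ({ω : (T → Fin m → Fin m → ℝ) × (Y → Fin m → Fin m → ℝ) |
        |φ q.1 q.2.1 - ∑ i, form (ω.2 q.2.1) (ω.1 q.1 i)| ≤ 2 / ((q.2.2.1 : ℝ) + 2)} ∩
      {ω | 0 ≤ form (ω.2 q.2.1) q.2.2.2}) := by
    intro q
    refine IsClosed.inter (isClosed_le ?_ continuous_const) (isClosed_le continuous_const ?_)
    · unfold form
      fun_prop
    · unfold form
      fun_prop
  have hcomp : IsCompact (Set.Icc ((fun _ _ _ => -|C|, fun _ _ _ => -2) :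
      (T → Fin m → Fin m → ℝ) × (Y → Fin m → Fin m → ℝ)) (fun _ _ _ => |C|, fun _ _ _ => 2)) :=
    isCompact_Icc
  obtain ⟨ω, -, hω⟩ := hcomp.inter_iInter_nonempty _ htc (by
    intro u
    obtain ⟨c, b, hc, hb1, hb2, hb3⟩ := H (u.image fun q => q.1) (u.image fun q => q.2.1)
      (u.sup fun q => q.2.2.1)
    refine ⟨(fun x => if h : x ∈ u.image (fun q => q.1) then c ⟨x, h⟩ else 0,
      fun f => if h : f ∈ u.image (fun q => q.2.1) then b ⟨f, h⟩ else 0), ⟨⟨?_, ?_⟩, ?_, ?_⟩, ?_⟩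
    · intro x i l
      by_cases h : x ∈ u.image (fun q => q.1)
      · simp only [dif_pos h]
        exact (abs_le.1 ((hc _ i l).trans (le_abs_self C))).1
      · simp only [dif_neg h, Pi.zero_apply, Left.neg_nonpos_iff, abs_nonneg]
    · intro f i l
      by_cases h : f ∈ u.image (fun q => q.2.1)
      · simp only [dif_pos h]
        exact (abs_le.1 (hb1 _ i l)).1
      · simp only [dif_neg h, Pi.zero_apply]
        norm_num
    · intro x i l
      by_cases h : x ∈ u.image (fun q => q.1)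
      · simp only [dif_pos h]
        exact (abs_le.1 ((hc _ i l).trans (le_abs_self C))).2
      · simp only [dif_neg h, Pi.zero_apply, abs_nonneg]
    · intro f i l
      by_cases h : f ∈ u.image (fun q => q.2.1)
      · simp only [dif_pos h]
        exact (abs_le.1 (hb1 _ i l)).2
      · simp only [dif_neg h, Pi.zero_apply]
        norm_num
    · simp only [Set.mem_iInter]
      intro q hq
      have h1 : q.1 ∈ u.image (fun q => q.1) := Finset.mem_image_of_mem _ hq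
      have h2 : q.2.1 ∈ u.image (fun q => q.2.1) :=
        Finset.mem_image_of_mem (fun q : T × Y × ℕ × (Fin m → ℝ) => q.2.1) hq
      have h3 : q.2.2.1 ≤ u.sup fun q => q.2.2.1 :=
        Finset.le_sup (f := fun q : T × Y × ℕ × (Fin m → ℝ) => q.2.2.1) hq
      refine ⟨?_, ?_⟩
      · simp only [Set.mem_ofPred_eq, dif_pos h1, dif_pos h2]
        refine (hb3 ⟨_, h1⟩ ⟨_, h2⟩).trans ?_
        apply div_le_div_of_nonneg_left (by norm_num) (by positivity)
        have : (q.2.2.1 : ℝ) ≤ (u.sup fun q => q.2.2.1 : ℕ) := by exact_mod_cast h3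
        linarith
      · simp only [Set.mem_ofPred_eq, dif_pos h2]
        exact hb2 _ _)
  rw [Set.mem_iInter] at hω
  refine ⟨ω.1, ω.2, fun f z => (hω (Classical.arbitrary T, f, 0, z)).2, fun x f => ?_⟩
  have h1 : ∀ j : ℕ, |φ x f - ∑ i, form (ω.2 f) (ω.1 x i)| ≤ 2 / ((j : ℝ) + 2) := fun j =>
    (hω (x, f, j, 0)).1
  have h2 : Tendsto (fun j : ℕ => 2 / ((j : ℝ) + 2)) atTop (𝓝 0) :=
    tendsto_const_nhds.div_atTop (tendsto_atTop_add_const_right _ _ tendsto_natCast_atTop_atTop)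
  have h3 := ge_of_tendsto' h2 h1
  exact sub_eq_zero.1 (abs_nonpos_iff.1 h3)

/-- **Closedness.** A closed convex cone which is approximated, on finitely many points and
functionals at a time, by sets with lifts of one fixed size is a spectrahedral shadow. -/
theorem shadow_of_approx {K : Set (Fin n → ℝ)} (hcl : IsClosed K)
    (hadd : ∀ x ∈ K, ∀ y ∈ K, x + y ∈ K) (hsm : ∀ c : ℝ, 0 ≤ c → ∀ x ∈ K, c • x ∈ K)
    (h0 : 0 ∈ K) (m : ℕ)
    (H : ∀ (F : Finset (Fin n → ℝ)) (G : Finset ((Fin n → ℝ) →L[ℝ] ℝ)) (η : ℝ), 0 < η →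
      (∀ x ∈ F, x ∈ K ∧ ‖x‖ ≤ 1 / 2) → (∀ f ∈ G, ‖f‖ ≤ 1 ∧ ∀ x ∈ K, 0 ≤ f x) →
      ∃ S, HasLift m S ∧ 0 ∈ S ∧ (∀ x ∈ F, ∃ x' ∈ S, ‖x' - x‖ ≤ η) ∧
        ∀ f ∈ G, ∀ y ∈ S, ‖y‖ ≤ 1 → -η ≤ f y) :
    IsSpectrahedralShadow K := by
  classical
  obtain ⟨C, hC⟩ := fact_fin m
  have : Nonempty (TT K) := ⟨⟨0, h0, by simp⟩⟩
  obtain ⟨c, b, hb, h⟩ := fact_compact (m := m) (fun (x : TT K) (f : YY K) => f.1 x.1) C (by
    intro FT GY J
    have hη : 0 < 1 / ((J : ℝ) + 2) := by positivity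
    have hη1 : 1 / ((J : ℝ) + 2) ≤ 1 / 2 := by
      apply one_div_le_one_div_of_le (by norm_num)
      have : (0 : ℝ) ≤ J := Nat.cast_nonneg J
      linarith
    obtain ⟨S, hS, hS0, hSF, hSG⟩ := H (FT.image Subtype.val) (GY.image Subtype.val) _ hη
      (by
        intro x hx
        obtain ⟨y, -, rfl⟩ := Finset.mem_image.1 hx
        exact y.2)
      (by
        intro f hf
        obtain ⟨y, -, rfl⟩ := Finset.mem_image.1 hf
        exact y.2)
    have hSF' : ∀ k : FT, ∃ x' ∈ S, ‖x' - k.1.1‖ ≤ 1 / ((J : ℝ) + 2) := fun k =>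
      hSF _ (Finset.mem_image_of_mem _ k.2)
    choose x' hx'S hx' using hSF'
    obtain ⟨c, hc, hcf⟩ := hC n S hS hS0 FT x' hx'S (by
      intro k
      have h1 := norm_add_le (x' k - k.1.1) k.1.1
      rw [sub_add_cancel] at h1
      have h2 := k.1.2.2
      have h3 := hx' k
      linarith)
    have hcf' : ∀ f : GY, ∃ b : Fin m → Fin m → ℝ, (∀ l l', |b l l'| ≤ 2) ∧
        (∀ z, 0 ≤ form b z) ∧
        ∀ k, |f.1.1 (x' k) - ∑ i, form b (c k i)| ≤ 1 / ((J : ℝ) + 2) := fun f =>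
      hcf f.1.1 _ f.1.2.1 (by linarith) (hSG _ (Finset.mem_image_of_mem _ f.2))
    choose b hb1 hb2 hb3 using hcf'
    refine ⟨c, b, hc, hb1, hb2, fun x f => ?_⟩
    have h4 := abs_le.1 (hb3 f x)
    have h5 := f.1.1.le_opNorm (x' x - x.1.1)
    have h6 := mul_le_mul f.1.2.1 (hx' x) (norm_nonneg _) zero_le_one
    rw [map_sub, Real.norm_eq_abs] at h5
    have h8 : 2 / ((J : ℝ) + 2) = 2 * (1 / ((J : ℝ) + 2)) := by ring
    have h9 := abs_le.1 (h5.trans h6)
    rw [abs_le]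
    constructor <;> linarith [h9.1, h9.2, h4.1, h4.2])
  exact shadow_of_fact hcl hadd hsm h0 c b hb h

theorem HasLift.affine {S : Set (Fin n → ℝ)} (h : HasLift m S) (c : ℝ) (y : Fin n → ℝ) :
    HasLift m {x | c • x + y ∈ S} := by
  obtain ⟨a, A₀, A, B, h₀, hA, hB, rfl⟩ := h
  refine ⟨a, A₀ + ∑ i, y i • A i, fun i => c • A i, B, ?_, fun i => (hA i).smul c, hB, ?_⟩
  · have := aff_symm h₀ hA hB 1 y 0
    simpa [aff] using this
  · ext x
    have h1 : A₀ + ∑ i, (c • x + y) i • A i = A₀ + ∑ i, y i • A i + ∑ i, x i • c • A i := by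
      simp only [Pi.add_apply, Pi.smul_apply, smul_eq_mul, add_smul, Finset.sum_add_distrib,
        smul_smul, mul_comm c]
      abel
    simp only [Set.mem_ofPred_eq, h1]

/-- **Inapproximability.** A closed convex cone which is not a shadow keeps a positive distance
from all sets with lifts of size `m`. -/
theorem far_of_not_shadow {K : Set (Fin n → ℝ)} (hcl : IsClosed K)
    (hadd : ∀ x ∈ K, ∀ y ∈ K, x + y ∈ K) (hsm : ∀ c : ℝ, 0 ≤ c → ∀ x ∈ K, c • x ∈ K)
    (h0 : 0 ∈ K) (hns : ¬ IsSpectrahedralShadow K) (m : ℕ) :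
    ∀ᶠ ε : ℝ in 𝓝[>] 0, ∀ S : Set (Fin n → ℝ), HasLift m S → ENNReal.ofReal ε ≤
      Metric.hausdorffEDist (S ∩ Metric.closedBall 0 1) (K ∩ Metric.closedBall 0 1) := by
  by_contra hcon
  rw [Filter.not_eventually] at hcon
  apply hns
  refine shadow_of_approx hcl hadd hsm h0 m fun F G η hη hF hG => ?_
  have h1 : ∀ᶠ ε : ℝ in 𝓝[>] 0, 0 < ε ∧ ε < min (η / 4) (1 / 2) :=
    Ioo_mem_nhdsGT (lt_min (by positivity) (by norm_num))
  obtain ⟨ε, hε, hε0, hε1⟩ := (hcon.and_eventually h1).exists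
  push Not at hε
  obtain ⟨S, hS, hd⟩ := hε
  obtain ⟨hε2, hε3⟩ := lt_min_iff.1 hε1
  have k1 : ∀ x ∈ K, ‖x‖ ≤ 1 → ∃ y ∈ S, ‖y - x‖ < ε := by
    intro x hx hx1
    rw [Metric.hausdorffEDist_comm] at hd
    obtain ⟨y, hy, h⟩ := Metric.exists_edist_lt_of_hausdorffEDist_lt
      (Set.mem_inter hx (mem_closedBall_zero_iff.2 hx1)) hd
    rw [edist_lt_ofReal, dist_comm, dist_eq_norm] at h
    exact ⟨y, hy.1, h⟩
  have k2 : ∀ y ∈ S, ‖y‖ ≤ 1 → ∃ x ∈ K, ‖y - x‖ < ε := by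
    intro y hy hy1
    obtain ⟨x, hx, h⟩ := Metric.exists_edist_lt_of_hausdorffEDist_lt
      (Set.mem_inter hy (mem_closedBall_zero_iff.2 hy1)) hd
    rw [edist_lt_ofReal, dist_eq_norm] at h
    exact ⟨x, hx.1, h⟩
  obtain ⟨y0, hy0, hy0'⟩ := k1 0 h0 (by simp)
  rw [sub_zero] at hy0'
  refine ⟨_, hS.affine (1 / 2) y0, by simpa using hy0, fun x hx => ?_, fun f hf z hz hz1 => ?_⟩
  · obtain ⟨y, hy, h⟩ := k1 ((1 / 2 : ℝ) • x) (hsm _ (by norm_num) x (hF x hx).1) (by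
      rw [norm_smul, Real.norm_eq_abs, abs_of_pos (by norm_num)]
      linarith [(hF x hx).2])
    refine ⟨(2 : ℝ) • (y - y0), ?_, ?_⟩
    · change (1 / 2 : ℝ) • (2 : ℝ) • (y - y0) + y0 ∈ S
      rwa [smul_smul, show (1 / 2 : ℝ) * 2 = 1 by norm_num, one_smul, sub_add_cancel]
    · have h2 : (2 : ℝ) • (y - y0) - x = (2 : ℝ) • ((y - (1 / 2 : ℝ) • x) - y0) := by module
      rw [h2, norm_smul, Real.norm_eq_abs, abs_of_pos (by norm_num)]
      linarith [norm_sub_le (y - (1 / 2 : ℝ) • x) y0]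
  · obtain ⟨x, hx, h⟩ := k2 _ hz (by
      refine (norm_add_le _ _).trans ?_
      rw [norm_smul, Real.norm_eq_abs, abs_of_pos (by norm_num)]
      linarith)
    have hb : ∀ v, |f v| ≤ ‖v‖ := fun v => by
      have h3 := f.le_opNorm v
      have h4 := mul_le_mul_of_nonneg_right (hG f hf).1 (norm_nonneg v)
      rw [Real.norm_eq_abs] at h3
      linarith
    have h2 := abs_le.1 (hb ((1 / 2 : ℝ) • z + y0 - x))
    have h3 := abs_le.1 (hb y0)
    have h4 := (hG f hf).2 x hx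
    rw [map_sub, map_add, map_smul, smul_eq_mul] at h2
    linarith [h2.1, h3.2]

end Vale.Agent.N256
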