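import Vale.Agent.N256.Fact

/-! P256: the operators `f ↦ f + c f'`, approximation by strictly hyperbolic polynomials, and
lower semicontinuity of the size of lifts. -/

namespace Vale.Agent.N256

open Polynomial Filter Topology Vale.Agent.P256

section uni

/-- The operator `f ↦ f + c f'`. -/
noncomputable def step (c : ℝ) (f : ℝ[X]) : ℝ[X] := f + C c * derivative f

theorem im_aux (s : Multiset ℝ) (z : ℂ) (hz : z.im ≠ 0) :
    aeval z (s.map fun a => X - C a).prod ≠ 0 ∧
    (aeval z (derivative (s.map fun a => X - C a).prod) *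
      (starRingEnd ℂ) (aeval z (s.map fun a => X - C a).prod)).im * z.im ≤ 0 ∧
    (s ≠ 0 → (aeval z (derivative (s.map fun a => X - C a).prod) *
      (starRingEnd ℂ) (aeval z (s.map fun a => X - C a).prod)).im * z.im < 0) := by
  induction s using Multiset.induction_on with
  | empty => simp
  | cons a s ih =>
    obtain ⟨h1, h2, -⟩ := ih
    rw [Multiset.map_cons, Multiset.prod_cons]
    generalize (s.map fun a => X - C a).prod = h at h1 h2
    have e1 : aeval z ((X - C a) * h) = (z - a) * aeval z h := by simp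
    have e2 : aeval z (derivative ((X - C a) * h)) =
        aeval z h + (z - a) * aeval z (derivative h) := by simp
    have hza : z - a ≠ 0 := by
      intro h0
      apply hz
      simpa using congrArg Complex.im h0
    rw [e1, e2]
    generalize aeval z h = u at h1 h2
    generalize aeval z (derivative h) = v at h2
    have hu : 0 < u.re ^ 2 + u.im ^ 2 := by
      have := Complex.normSq_pos.2 h1
      rw [Complex.normSq_apply] at this
      nlinarith
    have key : ((u + (z - a) * v) * (starRingEnd ℂ) ((z - a) * u)).im * z.im =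
        -((u.re ^ 2 + u.im ^ 2) * z.im ^ 2) +
          ((z.re - a) ^ 2 + z.im ^ 2) * ((v * (starRingEnd ℂ) u).im * z.im) := by
      simp only [Complex.mul_im, Complex.mul_re, Complex.add_re, Complex.add_im, Complex.sub_re,
        Complex.sub_im, Complex.ofReal_re, Complex.ofReal_im, Complex.conj_re, Complex.conj_im]
      ring
    have hlt : ((u + (z - a) * v) * (starRingEnd ℂ) ((z - a) * u)).im * z.im < 0 := by
      rw [key]
      have h3 : 0 < (u.re ^ 2 + u.im ^ 2) * z.im ^ 2 := mul_pos hu (by positivity)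
      have h4 := mul_nonpos_of_nonneg_of_nonpos
        (by positivity : 0 ≤ (z.re - a) ^ 2 + z.im ^ 2) h2
      linarith
    exact ⟨mul_ne_zero hza h1, hlt.le, fun _ => hlt⟩

theorem step_C_mul (c a : ℝ) (f : ℝ[X]) : step c (C a * f) = C a * step c f := by
  simp only [step, derivative_mul, derivative_C, zero_mul, zero_add]
  ring

theorem step_splits (c : ℝ) {f : ℝ[X]} (hf : f.Splits) : (step c f).Splits := by
  obtain ⟨s, hs⟩ := splits_iff_exists_multiset.1 hf
  rw [hs, step_C_mul]
  refine splits_smul ?_ _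
  apply splits_of_real_roots
  intro z hz
  by_contra him
  obtain ⟨h1, -, h3⟩ := im_aux s z him
  by_cases h0 : s = 0
  · subst h0
    simp [step] at hz
  have h4 := h3 h0
  generalize (s.map fun a => X - C a).prod = h at h1 h4 hz
  simp only [step, map_add, map_mul, aeval_C, Complex.coe_algebraMap] at hz
  generalize aeval z h = u at h1 h4 hz
  generalize aeval z (derivative h) = v at h4 hz
  have h5 : u = -(c * v) := by linear_combination hz
  rw [h5] at h4
  simp only [Complex.mul_im, Complex.mul_re, Complex.neg_re, Complex.neg_im, Complex.ofReal_re,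
    Complex.ofReal_im, Complex.conj_re, Complex.conj_im] at h4
  have h6 : (v.re * - -(c * v.im + 0 * v.re) + v.im * -(c * v.re - 0 * v.im)) * z.im = 0 := by
    ring
  linarith

theorem laguerre_aux (s : Multiset ℝ) (t : ℝ) :
    ((s.map fun a => X - C a).prod).eval t *
      (derivative (derivative (s.map fun a => X - C a).prod)).eval t ≤
      (derivative (s.map fun a => X - C a).prod).eval t ^ 2 ∧
    (s ≠ 0 → ((s.map fun a => X - C a).prod).eval t ≠ 0 →
      ((s.map fun a => X - C a).prod).eval t *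
        (derivative (derivative (s.map fun a => X - C a).prod)).eval t <
        (derivative (s.map fun a => X - C a).prod).eval t ^ 2) := by
  induction s using Multiset.induction_on with
  | empty => simp
  | cons a s ih =>
    obtain ⟨h1, -⟩ := ih
    rw [Multiset.map_cons, Multiset.prod_cons]
    generalize (s.map fun a => X - C a).prod = h at h1
    have e1 : ((X - C a) * h).eval t = (t - a) * h.eval t := by simp
    have e2 : (derivative ((X - C a) * h)).eval t =
        h.eval t + (t - a) * (derivative h).eval t := by simp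
    have e3 : (derivative (derivative ((X - C a) * h))).eval t =
        2 * (derivative h).eval t + (t - a) * (derivative (derivative h)).eval t := by
      simp
      ring
    rw [e1, e2, e3]
    generalize h.eval t = u at h1
    generalize (derivative h).eval t = v at h1
    generalize (derivative (derivative h)).eval t = w at h1
    have h2 := mul_le_mul_of_nonneg_left h1 (sq_nonneg (t - a))
    refine ⟨by nlinarith [sq_nonneg u], fun _ h3 => ?_⟩
    have h4 : 0 < u ^ 2 := sq_pos_of_ne_zero (right_ne_zero_of_mul h3)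
    nlinarith

/-- All real roots have multiplicity at most `k` (and `f ≠ 0`). -/
def MultLE (k : ℕ) (f : ℝ[X]) : Prop := ∀ t : ℝ, ¬ (X - C t) ^ (k + 1) ∣ f

theorem MultLE.ne_zero {k : ℕ} {f : ℝ[X]} (h : MultLE k f) : f ≠ 0 := by
  rintro rfl
  exact h 0 (dvd_zero _)

theorem MultLE.mono {k l : ℕ} {f : ℝ[X]} (h : MultLE k f) (hkl : k ≤ l) : MultLE l f :=
  fun t ht => h t ((pow_dvd_pow _ (by omega)).trans ht)

theorem multLE_of_natDegree {k : ℕ} {f : ℝ[X]} (h0 : f ≠ 0) (h : f.natDegree ≤ k) :
    MultLE k f := by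
  intro t ht
  have h1 := natDegree_le_of_dvd ht h0
  rw [natDegree_pow, natDegree_X_sub_C] at h1
  omega

/-- The operator lowers multiplicities. -/
theorem MultLE.step {k : ℕ} {f : ℝ[X]} (hf : f.Splits) (hk : 1 ≤ k) {c : ℝ} (hc : c ≠ 0)
    (h : MultLE (k + 1) f) : MultLE k (step c f) := by
  intro t ht
  have hf0 := h.ne_zero
  by_cases hft : f.IsRoot t
  · have h1 : f.rootMultiplicity t ≤ k + 1 := by
      by_contra h2
      exact h t ((le_rootMultiplicity_iff hf0).1 (by omega))
    have h2 : 0 < f.rootMultiplicity t := (rootMultiplicity_pos hf0).2 hft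
    have h3 : (X - C t) ^ f.rootMultiplicity t ∣ C c * derivative f := by
      have h4 := (pow_dvd_pow (X - C t) h1).trans ht
      exact (dvd_add_right (pow_rootMultiplicity_dvd f t)).1 h4
    have h4 : (X - C t) ^ f.rootMultiplicity t ∣ derivative f :=
      ((isUnit_C.2 (IsUnit.mk0 c hc)).dvd_mul_left).1 h3
    have h5 : derivative f ≠ 0 := by
      intro h6
      have h7 := eq_C_of_derivative_eq_zero h6
      rw [h7, IsRoot.def, eval_C] at hft
      rw [hft, C_0] at h7
      exact hf0 h7
    have h6 := (le_rootMultiplicity_iff h5).2 h4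
    rw [derivative_rootMultiplicity_of_root hft] at h6
    omega
  · have h1 : (X - C t) ^ 2 ∣ N256.step c f := (pow_dvd_pow _ (by omega)).trans ht
    obtain ⟨g, hg⟩ := h1
    have e1 : f.eval t + c * (derivative f).eval t = 0 := by
      have := congrArg (eval t) hg
      simpa [N256.step] using this
    have e2 : (derivative f).eval t + c * (derivative (derivative f)).eval t = 0 := by
      have := congrArg (fun p => eval t (derivative p)) hg
      simpa [N256.step, derivative_pow] using this
    obtain ⟨s, hs⟩ := splits_iff_exists_multiset.1 hf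
    have hl : f.leadingCoeff ≠ 0 := leadingCoeff_ne_zero.2 hf0
    obtain ⟨-, h3⟩ := laguerre_aux s t
    generalize f.leadingCoeff = l at hs hl
    rw [IsRoot.def] at hft
    by_cases h0 : s = 0
    · subst h0
      rw [hs] at e1 hft
      simp at e1 hft
      exact hft e1
    generalize (s.map fun a => X - C a).prod = g' at hs h3
    subst hs
    simp only [derivative_mul, derivative_C, zero_mul, zero_add, eval_mul, eval_C] at e1 e2 hft
    have h4 := h3 h0 (right_ne_zero_of_mul hft)
    have e3 : g'.eval t + c * (derivative g').eval t = 0 := by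
      apply mul_left_cancel₀ hl
      linear_combination e1
    have e4 : (derivative g').eval t + c * (derivative (derivative g')).eval t = 0 := by
      apply mul_left_cancel₀ hl
      linear_combination e2
    have e5 : g'.eval t * (derivative (derivative g')).eval t = (derivative g').eval t ^ 2 := by
      linear_combination (derivative (derivative g')).eval t * e3 - (derivative g').eval t * e4
    linarith

theorem MultLE.step' {k : ℕ} {f : ℝ[X]} (hf : f.Splits) (hk : 1 ≤ k) (c : ℝ)
    (h : MultLE k f) : MultLE k (N256.step c f) := by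
  by_cases hc : c = 0
  · simpa [N256.step, hc] using h
  · exact MultLE.step hf hk hc (h.mono (Nat.le_succ k))

end uni

section multi

variable {n d : ℕ} {p : MvPolynomial (Fin n) ℝ} {e : Fin n → ℝ}

theorem hyp_of_splits (hd : p.IsHomogeneous d) (he : 0 < MvPolynomial.eval e p)
    (h : ∀ x, (line p x e).Splits) : IsHyperbolic p e := by
  refine ⟨⟨d, hd⟩, he, fun x t ht => ?_⟩
  have h0 : line p (-x) e ≠ 0 := by
    intro h0
    have h1 := (line_leading hd (-x) e he.ne').2
    rw [h0, leadingCoeff_zero] at h1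
    exact he.ne h1
  refine Splits.real_roots (h (-x)) h0 t ?_
  rw [aeval_line, ← ht]
  congr 2
  funext i
  simp only [Pi.neg_apply, Complex.ofReal_neg]
  ring

/-- The operator `q ↦ q + s l D_e q`. -/
noncomputable def TT1 (e : Fin n → ℝ) (s : ℝ) (l q : MvPolynomial (Fin n) ℝ) :
    MvPolynomial (Fin n) ℝ := q + s • (l * dirD q e)

/-- Linear forms vanishing at `e`. -/
def LinAt (e : Fin n → ℝ) (l : MvPolynomial (Fin n) ℝ) : Prop :=
  l.IsHomogeneous 1 ∧ ∀ (x : Fin n → ℝ) (t : ℝ),
    MvPolynomial.eval (x + t • e) l = MvPolynomial.eval x l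

theorem LinAt.eval_e {l : MvPolynomial (Fin n) ℝ} (h : LinAt e l) : MvPolynomial.eval e l = 0 := by
  have h1 := h.2 0 1
  have h2 := eval_smul' h.1 0 e
  rw [zero_smul] at h2
  rw [zero_add, one_smul, h2] at h1
  simpa using h1

theorem line_TT1 {l : MvPolynomial (Fin n) ℝ} (hl : LinAt e l) (s : ℝ)
    (q : MvPolynomial (Fin n) ℝ) (x : Fin n → ℝ) :
    line (TT1 e s l q) x e = step (s * MvPolynomial.eval x l) (line q x e) := by
  apply Polynomial.funext
  intro t
  rw [step, eval_add, eval_mul, eval_C, derivative_line, eval_line, eval_line, eval_line, TT1,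
    map_add, MvPolynomial.smul_eval, map_mul, hl.2]
  ring

theorem homog_TT1 {l : MvPolynomial (Fin n) ℝ} (hl : LinAt e l) (s : ℝ) (hd : p.IsHomogeneous d)
    (h1 : 1 ≤ d) : (TT1 e s l p).IsHomogeneous d := by
  have h2 := hl.1.mul (homog_dirD hd e)
  rw [show 1 + (d - 1) = d by omega] at h2
  refine hd.add ?_
  rw [MvPolynomial.smul_eq_C_mul]
  simpa using (MvPolynomial.isHomogeneous_C (Fin n) s).mul h2

theorem hyp_TT1 {l : MvPolynomial (Fin n) ℝ} (hl : LinAt e l) (s : ℝ) (hd : p.IsHomogeneous d)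
    (h1 : 1 ≤ d) (hp : IsHyperbolic p e) : IsHyperbolic (TT1 e s l p) e := by
  refine hyp_of_splits (homog_TT1 hl s hd h1) ?_ fun x => ?_
  · rw [TT1, map_add, MvPolynomial.smul_eval, map_mul, hl.eval_e]
    simpa using hp.2.1
  · rw [line_TT1 hl]
    exact step_splits _ (hp.splits x)

/-- Iteration of the operators along a list of linear forms. -/
noncomputable def Nu (e : Fin n → ℝ) (s : ℝ) (L : List (MvPolynomial (Fin n) ℝ))
    (q : MvPolynomial (Fin n) ℝ) : MvPolynomial (Fin n) ℝ := L.foldr (TT1 e s) q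

theorem Nu_cons (s : ℝ) (l : MvPolynomial (Fin n) ℝ) (L : List (MvPolynomial (Fin n) ℝ))
    (q : MvPolynomial (Fin n) ℝ) : Nu e s (l :: L) q = TT1 e s l (Nu e s L q) := rfl

theorem Nu_hyp (s : ℝ) (hd : p.IsHomogeneous d) (h1 : 1 ≤ d) (hp : IsHyperbolic p e)
    (L : List (MvPolynomial (Fin n) ℝ)) (hL : ∀ l ∈ L, LinAt e l) :
    (Nu e s L p).IsHomogeneous d ∧ IsHyperbolic (Nu e s L p) e := by
  induction L with
  | nil => exact ⟨hd, hp⟩
  | cons l L ih =>
    obtain ⟨i1, i2⟩ := ih fun l' hl' => hL l' (List.mem_cons_of_mem _ hl')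
    have hl := hL l List.mem_cons_self
    exact ⟨homog_TT1 hl s i1 h1, hyp_TT1 hl s i1 h1 i2⟩

theorem Nu_zero (L : List (MvPolynomial (Fin n) ℝ)) : Nu e 0 L p = p := by
  induction L with
  | nil => rfl
  | cons l L ih => rw [Nu_cons, ih, TT1, zero_smul, add_zero]

theorem Nu_cont (L : List (MvPolynomial (Fin n) ℝ)) :
    ∀ φ : MvPolynomial (Fin n) ℝ →ₗ[ℝ] ℝ, Continuous fun s => φ (Nu e s L p) := by
  induction L with
  | nil => exact fun φ => continuous_const (y := φ p)
  | cons l L ih =>
    intro φ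
    have h : (fun s => φ (Nu e s (l :: L) p)) = fun s => φ (Nu e s L p) +
        s * (φ ∘ₗ (LinearMap.mulLeft ℝ l) ∘ₗ DL e) (Nu e s L p) := by
      funext s
      rw [Nu_cons, TT1, map_add, map_smul, ← DL_apply]
      rfl
    rw [h]
    exact (ih φ).add (continuous_id.mul (ih _))

open Classical in
theorem Nu_mult {s : ℝ} (hs : s ≠ 0) (hd : p.IsHomogeneous d) (h1 : 1 ≤ d) (hp : IsHyperbolic p e)
    (x : Fin n → ℝ) (L : List (MvPolynomial (Fin n) ℝ)) (hL : ∀ l ∈ L, LinAt e l) :
    ∀ k, 1 ≤ k → MultLE (k + L.countP fun l => MvPolynomial.eval x l ≠ 0) (line p x e) →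
      MultLE k (line (Nu e s L p) x e) := by
  induction L with
  | nil => exact fun k _ h => h
  | cons l L ih =>
    intro k hk h
    have hL' : ∀ l' ∈ L, LinAt e l' := fun l' hl' => hL l' (List.mem_cons_of_mem _ hl')
    have hl := hL l List.mem_cons_self
    have hsp := (Nu_hyp s hd h1 hp L hL').2.splits x
    rw [Nu_cons, line_TT1 hl]
    by_cases h0 : MvPolynomial.eval x l = 0
    · rw [List.countP_cons_of_neg (by simpa using h0)] at h
      exact MultLE.step' hsp hk _ (ih hL' k hk h)
    · rw [List.countP_cons_of_pos (by simpa using h0)] at h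
      refine MultLE.step hsp hk (mul_ne_zero hs h0) (ih hL' (k + 1) (by omega) ?_)
      rwa [add_assoc, add_comm 1]

/-- The minors of `(e, x)`. -/
noncomputable def minors (e : Fin n → ℝ) : List (MvPolynomial (Fin n) ℝ) :=
  (Finset.univ : Finset (Fin n × Fin n)).toList.map fun q =>
    MvPolynomial.C (e q.1) * MvPolynomial.X q.2 - MvPolynomial.C (e q.2) * MvPolynomial.X q.1

theorem minors_lin : ∀ l ∈ minors e, LinAt e l := by
  intro l hl
  obtain ⟨q, -, rfl⟩ := List.mem_map.1 hl
  refine ⟨?_, fun x t => ?_⟩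
  · refine MvPolynomial.IsHomogeneous.sub ?_ ?_
    · simpa using (MvPolynomial.isHomogeneous_C (Fin n) (e q.1)).mul
        (MvPolynomial.isHomogeneous_X ℝ q.2)
    · simpa using (MvPolynomial.isHomogeneous_C (Fin n) (e q.2)).mul
        (MvPolynomial.isHomogeneous_X ℝ q.1)
  · simp only [map_sub, map_mul, MvPolynomial.eval_C, MvPolynomial.eval_X, Pi.add_apply,
      Pi.smul_apply, smul_eq_mul]
    ring

theorem minors_ne (he : e ≠ 0) {x : Fin n → ℝ} (hx : ∀ c : ℝ, x ≠ c • e) :
    ∃ l ∈ minors e, MvPolynomial.eval x l ≠ 0 := by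
  obtain ⟨i, hi⟩ : ∃ i, e i ≠ 0 := Function.ne_iff.1 he
  obtain ⟨j, hj⟩ := Function.ne_iff.1 (hx (x i / e i))
  refine ⟨_, List.mem_map.2 ⟨(i, j), Finset.mem_toList.2 (Finset.mem_univ _), rfl⟩, fun h => hj ?_⟩
  simp only [map_sub, map_mul, MvPolynomial.eval_C, MvPolynomial.eval_X] at h
  simp only [Pi.smul_apply, smul_eq_mul]
  field_simp
  linarith

/-- The list of minors, repeated. -/
noncomputable def reps (e : Fin n → ℝ) : ℕ → List (MvPolynomial (Fin n) ℝ)
  | 0 => []
  | j + 1 => minors e ++ reps e j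

theorem reps_lin (j : ℕ) : ∀ l ∈ reps e j, LinAt e l := by
  induction j with
  | zero => simp [reps]
  | succ j ih =>
    intro l hl
    rcases List.mem_append.1 hl with h | h
    · exact minors_lin l h
    · exact ih l h

open Classical in
theorem reps_count (he : e ≠ 0) {x : Fin n → ℝ} (hx : ∀ c : ℝ, x ≠ c • e) (j : ℕ) :
    j ≤ (reps e j).countP fun l => MvPolynomial.eval x l ≠ 0 := by
  induction j with
  | zero => exact Nat.zero_le _
  | succ j ih =>
    rw [reps, List.countP_append]
    have h : 0 < (minors e).countP fun l => MvPolynomial.eval x l ≠ 0 := by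
      rw [List.countP_pos_iff]
      obtain ⟨l, hl, h⟩ := minors_ne he hx
      exact ⟨l, hl, by simpa using h⟩
    omega

theorem e_ne_zero (hd : p.IsHomogeneous d) (h1 : 1 ≤ d) (hp : IsHyperbolic p e) : e ≠ 0 := by
  rintro rfl
  have h2 := eval_smul' hd 0 (0 : Fin n → ℝ)
  rw [zero_smul, zero_pow (by omega), zero_mul] at h2
  exact hp.2.1.ne' h2

/-- The exponents of degree `d`. -/
noncomputable def expo (n d : ℕ) : Finset (Fin n →₀ ℕ) := Finset.finsuppAntidiag Finset.univ d

theorem coeff_expo (hd : p.IsHomogeneous d) {α : Fin n →₀ ℕ} (h : α ∉ expo n d) :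
    MvPolynomial.coeff α p = 0 := by
  by_contra h0
  apply h
  rw [expo, Finset.mem_finsuppAntidiag]
  refine ⟨?_, Finset.subset_univ _⟩
  have := hd h0
  rw [← this, Finsupp.weight_apply, Finsupp.sum_fintype]
  · simp only [Pi.one_apply, smul_eq_mul, mul_one]
  · simp

/-- **Nuij.** Approximation by strictly hyperbolic polynomials. -/
theorem nuij (hd : p.IsHomogeneous d) (h1 : 1 ≤ d) (hp : IsHyperbolic p e) {ε : ℝ} (hε : 0 < ε) :
    ∃ q : MvPolynomial (Fin n) ℝ, q.IsHomogeneous d ∧ IsHyperbolic q e ∧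
      (∀ α, |MvPolynomial.coeff α q - MvPolynomial.coeff α p| < ε) ∧
      ∀ x : Fin n → ℝ, (∀ c : ℝ, x ≠ c • e) → MultLE 1 (line q x e) := by
  have h2 : ∀ᶠ s in 𝓝 (0 : ℝ), ∀ α ∈ expo n d,
      |MvPolynomial.coeff α (Nu e s (reps e d) p) - MvPolynomial.coeff α p| < ε := by
    rw [Finset.eventually_all]
    intro α _
    have h3 : Continuous fun s => |MvPolynomial.coeff α (Nu e s (reps e d) p) -
        MvPolynomial.coeff α p| :=
      ((Nu_cont (reps e d) (MvPolynomial.lcoeff ℝ α)).sub continuous_const).abs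
    refine h3.continuousAt.eventually_lt continuousAt_const ?_
    simpa [Nu_zero] using hε
  obtain ⟨s, hs, hs0⟩ := ((h2.filter_mono (nhdsWithin_le_nhds (s := {0}ᶜ))).and
    self_mem_nhdsWithin).exists
  obtain ⟨h3, h4⟩ := Nu_hyp s hd h1 hp (reps e d) (reps_lin d)
  refine ⟨_, h3, h4, fun α => ?_, fun x hx => ?_⟩
  · by_cases h : α ∈ expo n d
    · exact hs α h
    · rw [coeff_expo h3 h, coeff_expo hd h]
      simpa using hε
  · refine Nu_mult hs0 hd h1 hp x _ (reps_lin d) 1 le_rfl
      (multLE_of_natDegree (line_e_ne_zero hp x) ?_)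
    have h5 := reps_count (e_ne_zero hd h1 hp) hx d
    have h6 := (line_top hd x e).1
    omega

/-- On a line in the cone all roots vanish. -/
theorem lin_line (hd : p.IsHomogeneous d) (hp : IsHyperbolic p e) {v : Fin n → ℝ}
    (hv : v ∈ hypCone p e) (hv' : -v ∈ hypCone p e) : (X - C 0) ^ d ∣ line p v e := by
  have hs := hp.splits v
  have h0 := line_e_ne_zero hp v
  have h1 : (line p v e).roots = Multiset.replicate d 0 := by
    rw [Multiset.eq_replicate]
    refine ⟨?_, fun r hr => ?_⟩
    · rw [← hs.natDegree_eq_card_roots]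
      exact (line_leading hd v e hp.2.1.ne').1
    · have h2 := (mem_roots h0).1 hr
      rw [IsRoot.def, eval_line] at h2
      have h3 : ¬ 0 < r := fun h => (mem_hypCone_iff hd v).1 hv r h h2
      have h4 : 0 ≤ r := hv' r (by rw [sub_neg_eq_add, add_comm]; exact h2)
      linarith [not_lt.1 h3]
  rw [hs.eq_prod_roots, h1, Multiset.map_replicate, Multiset.prod_replicate]
  exact Dvd.intro_left _ rfl

theorem strict_smooth (hd : p.IsHomogeneous d) (hp : IsHyperbolic p e)
    (h : ∀ x : Fin n → ℝ, (∀ c : ℝ, x ≠ c • e) → MultLE 1 (line p x e)) (z : Fin n → ℝ)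
    (hz : z ≠ 0) (hz0 : MvPolynomial.eval z p = 0) : IsSmoothPoint p z := by
  have h1 : ∀ c : ℝ, z ≠ c • e := by
    rintro c rfl
    rw [eval_smul' hd] at hz0
    rcases mul_eq_zero.1 hz0 with h2 | h2
    · rw [pow_eq_zero_iff'] at h2
      exact hz (by rw [h2.1, zero_smul])
    · exact hp.2.1.ne' h2
  refine smooth_of_dd_pos (v := e) fun h2 => h z h1 0 ?_
  have h0 := line_e_ne_zero hp z
  refine (le_rootMultiplicity_iff h0).1 ((one_lt_rootMultiplicity_iff_isRoot h0).2 ⟨?_, ?_⟩)
  · rw [IsRoot.def, eval_line, zero_smul, add_zero, hz0]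
  · rw [IsRoot.def, eval_derivative_line, zero_smul, add_zero, h2]

theorem strict_pointed (hd : p.IsHomogeneous d) (h2 : 2 ≤ d) (hp : IsHyperbolic p e)
    (h : ∀ x : Fin n → ℝ, (∀ c : ℝ, x ≠ c • e) → MultLE 1 (line p x e)) (v : Fin n → ℝ)
    (hv : v ∈ hypCone p e) (hv' : -v ∈ hypCone p e) : v = 0 := by
  by_cases h1 : ∀ c : ℝ, v ≠ c • e
  · exact absurd ((pow_dvd_pow _ h2).trans (lin_line hd hp hv hv')) (h v h1 0)
  · push Not at h1
    obtain ⟨c, rfl⟩ := h1
    have h0 := eval_smul' hd 0 e
    rw [zero_smul, zero_pow (by omega), zero_mul] at h0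
    have h3 := hv c (by rw [sub_self, h0])
    have h4 := hv' (-c) (by rw [neg_smul, sub_self, h0])
    rw [show c = 0 by linarith, zero_smul]

/-- A cone which is not a shadow has degree at least two. -/
theorem two_le_deg (hd : p.IsHomogeneous d) (hp : IsHyperbolic p e)
    (hns : ¬ IsSpectrahedralShadow (hypCone p e)) : 2 ≤ d := by
  by_contra hlt
  apply hns
  have hcase : d = 0 ∨ d = 1 := by omega
  rcases hcase with rfl | rfl
  · have h1 := (MvPolynomial.totalDegree_zero_iff_isHomogeneous (Fin n)).2 hd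
    rw [MvPolynomial.totalDegree_eq_zero_iff_eq_C] at h1
    have h0 : MvPolynomial.eval 0 p ≠ 0 := by
      have := hp.2.1
      rw [h1] at this ⊢
      simpa using this.ne'
    rw [K_univ_of_eval_zero_ne hp h0]
    exact shadow_univ
  · let l : (Fin n → ℝ) →ₗ[ℝ] ℝ :=
      { toFun := fun x => dd p e x
        map_add' := dd_add p e
        map_smul' := dd_smul p e }
    have hl : ∀ x, MvPolynomial.eval x p = l x := by
      intro x
      have h1 := dd_euler hd x
      rw [Nat.cast_one, one_mul] at h1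
      rw [← h1]
      change dd p x x = dd p e x
      refine Finset.sum_congr rfl fun i _ => ?_
      have h2 := (MvPolynomial.totalDegree_zero_iff_isHomogeneous (Fin n)).2 (hd.pderiv (i := i))
      rw [MvPolynomial.totalDegree_eq_zero_iff_eq_C] at h2
      rw [h2, MvPolynomial.eval_C, MvPolynomial.eval_C]
    have hK : hypCone p e = {x | 0 ≤ l x} := by
      ext x
      constructor
      · intro hx
        have := K_eval_nonneg hp hx
        rwa [hl] at this
      · intro hx
        rw [mem_hypCone_iff hd]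
        intro t ht
        have h1 := hp.2.1
        rw [hl] at h1
        rw [hl, map_add, map_smul, smul_eq_mul]
        have h2 : 0 ≤ l x := hx
        have h3 := mul_pos ht h1
        linarith
    rw [hK]
    exact (GShad.halfspace l).shadow

end multi

section lsc

variable {n d : ℕ} {e : Fin n → ℝ}

/-- Lower semicontinuity of the size of lifts in continuous families. -/
theorem lsc {Z : Type} [TopologicalSpace Z] {z0 : Z} (q : Z → MvPolynomial (Fin n) ℝ)
    (hq : Continuous fun w : Z × (Fin n → ℝ) => MvPolynomial.eval w.2 (q w.1))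
    (hp : IsHyperbolic (q z0) e) (hd : (q z0).IsHomogeneous d)
    (hns : ¬ IsSpectrahedralShadow (hypCone (q z0) e)) (m : ℕ) :
    ∀ᶠ z in 𝓝 z0, IsHyperbolic (q z) e → (q z).IsHomogeneous d →
      ¬ HasLift m (hypCone (q z) e) := by
  by_contra hcon
  rw [Filter.not_eventually] at hcon
  apply hns
  refine shadow_of_approx (isClosed_K hp) (fun x hx y hy => K_add hp hx hy)
    (fun c hc x hx => K_smul hp hx hc) (K_zero hp) m fun F G η hη hF hG => ?_
  have hδ : 0 < η / (‖e‖ + 1) := by positivity
  have e1 : ∀ᶠ z in 𝓝 z0, ∀ x ∈ F, ∀ s ∈ Set.Icc (0 : ℝ) 1,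
      MvPolynomial.eval ((1 - s) • (x + (η / (‖e‖ + 1)) • e) + s • e) (q z) ≠ 0 := by
    rw [Finset.eventually_all]
    intro x hx
    refine isCompact_Icc.eventually_forall_of_forall_eventually fun s hs => ?_
    have hc : Continuous fun w : Z × ℝ =>
        MvPolynomial.eval ((1 - w.2) • (x + (η / (‖e‖ + 1)) • e) + w.2 • e) (q w.1) :=
      hq.comp (f := fun w : Z × ℝ =>
        (w.1, (1 - w.2) • (x + (η / (‖e‖ + 1)) • e) + w.2 • e)) (by fun_prop)
    refine hc.continuousAt.eventually_ne ?_
    have h1 : (1 - s) • (x + (η / (‖e‖ + 1)) • e) + s • e =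
        (1 - s) • x + ((1 - s) * (η / (‖e‖ + 1)) + s) • e := by module
    simp only [h1]
    refine (mem_hypCone_iff hd _).1 (K_smul hp (hF x hx).1 (sub_nonneg.2 hs.2)) _ ?_
    rcases hs.1.eq_or_lt with h | h
    · rw [← h]
      simpa using hδ
    · have := mul_nonneg (sub_nonneg.2 hs.2) hδ.le
      linarith
  have e2 : ∀ᶠ z in 𝓝 z0, ∀ f ∈ G, ∀ y ∈ Metric.closedBall (0 : Fin n → ℝ) 1,
      IsHyperbolic (q z) e → (q z).IsHomogeneous d → y ∈ hypCone (q z) e → -η ≤ f y := by
    rw [Finset.eventually_all]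
    intro f hf
    refine (isCompact_closedBall 0 1).eventually_forall_of_forall_eventually fun y _ => ?_
    by_cases hy : y ∈ hypCone (q z0) e
    · have hc : Continuous fun w : Z × (Fin n → ℝ) => f w.2 := by fun_prop
      have h1 : -η < f y := by linarith [(hG f hf).2 y hy]
      filter_upwards [continuousAt_const.eventually_lt (hc.continuousAt (x := (z0, y))) h1]
        with w hw _ _ _ using hw.le
    · rw [mem_hypCone_iff hd] at hy
      push Not at hy
      obtain ⟨t, ht, hy⟩ := hy
      have hc1 : Continuous fun w : Z × (Fin n → ℝ) =>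
          MvPolynomial.eval (w.2 + t • e) (q w.1) :=
        hq.comp (f := fun w : Z × (Fin n → ℝ) => (w.1, w.2 + t • e)) (by fun_prop)
      have hc2 : Continuous fun w : Z × (Fin n → ℝ) => MvPolynomial.eval e (q w.1) * t ^ d :=
        (hq.comp (f := fun w : Z × (Fin n → ℝ) => (w.1, e)) (by fun_prop)).mul continuous_const
      have h1 : MvPolynomial.eval (y + t • e) (q z0) < MvPolynomial.eval e (q z0) * t ^ d := by
        rw [hy]
        exact mul_pos hp.2.1 (pow_pos ht d)
      filter_upwards [(hc1.continuousAt (x := (z0, y))).eventually_lt hc2.continuousAt h1]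
        with w hw h2 h3 h4
      exact absurd (K_eval_ge h2 h3 h4 ht.le le_rfl).2.2 (not_le.2 hw)
  obtain ⟨z, hz, hz1, hz2⟩ := (hcon.and_eventually (e1.and e2)).exists
  push Not at hz
  obtain ⟨hz3, hz4, hz5⟩ := hz
  refine ⟨_, hz5, K_zero hz3, fun x hx => ⟨x + (η / (‖e‖ + 1)) • e, ?_, ?_⟩,
    fun f hf y hy hy1 => hz2 f hf y (by simpa using hy1) hz3 hz4 hy⟩
  · rw [mem_hypCone_iff hz4]
    intro t ht
    have h1 : 0 < 1 + t := by linarith
    have h2 := hz1 x hx (t / (1 + t)) ⟨by positivity, by rw [div_le_one h1]; linarith⟩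
    have h3 : x + (η / (‖e‖ + 1)) • e + t • e = (1 + t) • ((1 - t / (1 + t)) •
        (x + (η / (‖e‖ + 1)) • e) + (t / (1 + t)) • e) := by
      rw [smul_add (1 + t), smul_smul, smul_smul, mul_div_cancel₀ _ h1.ne', mul_sub,
        mul_div_cancel₀ _ h1.ne']
      simp
    rw [h3, eval_smul' hz4]
    exact mul_ne_zero (pow_pos h1 d).ne' h2
  · rw [add_sub_cancel_left, norm_smul, Real.norm_eq_abs, abs_of_pos hδ, div_mul_eq_mul_div,
      div_le_iff₀ (by positivity)]
    nlinarith

/-- The form of degree `d` with given coefficients. -/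
noncomputable def ofCo (n d : ℕ) (z : expo n d → ℝ) : MvPolynomial (Fin n) ℝ :=
  ∑ α : expo n d, MvPolynomial.monomial α.1 (z α)

theorem ofCo_coeff {p : MvPolynomial (Fin n) ℝ} (hd : p.IsHomogeneous d) :
    ofCo n d (fun α => MvPolynomial.coeff α.1 p) = p := by
  unfold ofCo
  rw [Finset.sum_coe_sort (expo n d) fun α => MvPolynomial.monomial α (MvPolynomial.coeff α p)]
  conv_rhs => rw [MvPolynomial.as_sum p]
  symm
  refine Finset.sum_subset (fun α hα => ?_) fun α _ hα => ?_
  · by_contra h
    exact MvPolynomial.mem_support_iff.1 hα (coeff_expo hd h)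
  · rw [MvPolynomial.notMem_support_iff.1 hα, map_zero]

theorem ofCo_cont : Continuous fun w : (expo n d → ℝ) × (Fin n → ℝ) =>
    MvPolynomial.eval w.2 (ofCo n d w.1) := by
  have h : (fun w : (expo n d → ℝ) × (Fin n → ℝ) => MvPolynomial.eval w.2 (ofCo n d w.1)) =
      fun w => ∑ α : expo n d, w.1 α * MvPolynomial.eval w.2 (MvPolynomial.monomial α.1 1) := by
    funext w
    simp only [ofCo, map_sum, MvPolynomial.eval_monomial, one_mul]
  rw [h]
  refine continuous_finsetSum _ fun α _ => Continuous.mul (by fun_prop) ?_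
  exact (continuous_eval _).comp continuous_snd

/-- **Lower semicontinuity.** Near a hyperbolic polynomial whose cone is not a shadow, no cone
has a lift of size at most `m`. -/
theorem lsc_coeff {p : MvPolynomial (Fin n) ℝ} (hp : IsHyperbolic p e) (hd : p.IsHomogeneous d)
    (hns : ¬ IsSpectrahedralShadow (hypCone p e)) (m : ℕ) :
    ∃ ε : ℝ, 0 < ε ∧ ∀ q : MvPolynomial (Fin n) ℝ, q.IsHomogeneous d → IsHyperbolic q e →
      (∀ α, |MvPolynomial.coeff α q - MvPolynomial.coeff α p| < ε) →
      ∀ k ≤ m, ¬ HasLift k (hypCone q e) := by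
  have h0 := ofCo_coeff hd
  have h1 : ∀ᶠ z in 𝓝 (fun α : expo n d => MvPolynomial.coeff α.1 p), ∀ k ∈ Finset.range (m + 1),
      IsHyperbolic (ofCo n d z) e → (ofCo n d z).IsHomogeneous d →
        ¬ HasLift k (hypCone (ofCo n d z) e) := by
    rw [Finset.eventually_all]
    intro k _
    exact lsc (ofCo n d) ofCo_cont (h0.symm ▸ hp) (h0.symm ▸ hd) (h0.symm ▸ hns) k
  obtain ⟨ε, hε, h⟩ := Metric.eventually_nhds_iff.1 h1
  refine ⟨ε, hε, fun q hq1 hq2 hq3 k hk => ?_⟩
  have h2 := h (y := fun α : expo n d => MvPolynomial.coeff α.1 q) (by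
    rw [dist_pi_lt_iff hε]
    intro α
    exact hq3 α.1) k (Finset.mem_range.2 (by omega))
  rw [ofCo_coeff hq1] at h2
  exact h2 hq2 hq1

/-- Smooth approximants of a cone which is not a shadow: shadows with larger and larger lifts. -/
theorem smooth_approx {p : MvPolynomial (Fin n) ℝ} (hp : IsHyperbolic p e)
    (hd : p.IsHomogeneous d) (hns : ¬ IsSpectrahedralShadow (hypCone p e)) (m : ℕ) {ε : ℝ}
    (hε : 0 < ε) :
    ∃ q : MvPolynomial (Fin n) ℝ, q.IsHomogeneous d ∧ IsHyperbolic q e ∧
      (∀ α, |MvPolynomial.coeff α q - MvPolynomial.coeff α p| < ε) ∧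
      (∀ z : Fin n → ℝ, z ≠ 0 → MvPolynomial.eval z q = 0 → IsSmoothPoint q z) ∧
      IsSpectrahedralShadow (hypCone q e) ∧ ∀ k ≤ m, ¬ HasLift k (hypCone q e) := by
  have h2 := two_le_deg hd hp hns
  obtain ⟨δ, hδ, h⟩ := lsc_coeff hp hd hns m
  obtain ⟨q, hq1, hq2, hq3, hq4⟩ := nuij hd (by omega) hp (lt_min hε hδ)
  refine ⟨q, hq1, hq2, fun α => (hq3 α).trans_le (min_le_left _ _), strict_smooth hq1 hq2 hq4, ?_,
    h q hq1 hq2 fun α => (hq3 α).trans_le (min_le_right _ _)⟩
  by_cases hn : n ≤ 2
  · exact (shadow_of_le_two hq2 hn).shadow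
  · exact mainD (by omega) hq2 (strict_pointed hq1 h2 hq2 hq4) fun z hz hz0 hz1 =>
      Or.inl (loc_of_smooth hz1 (dd_e_pos hq2 hz hz1 (strict_smooth hq1 hq2 hq4 z hz0 hz1)))

/-- No set with a lift of size at most `m` is close to the cone. -/
theorem far_cone {p : MvPolynomial (Fin n) ℝ} (hp : IsHyperbolic p e)
    (hns : ¬ IsSpectrahedralShadow (hypCone p e)) (m : ℕ) :
    ∃ ε : ℝ, 0 < ε ∧ ∀ k ≤ m, ∀ S : Set (Fin n → ℝ), HasLift k S → ENNReal.ofReal ε ≤
      Metric.hausdorffEDist (S ∩ Metric.closedBall 0 1)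
        (hypCone p e ∩ Metric.closedBall 0 1) := by
  have h1 : ∀ᶠ ε : ℝ in 𝓝[>] 0, ∀ k ∈ Finset.range (m + 1), ∀ S : Set (Fin n → ℝ),
      HasLift k S → ENNReal.ofReal ε ≤ Metric.hausdorffEDist (S ∩ Metric.closedBall 0 1)
        (hypCone p e ∩ Metric.closedBall 0 1) := by
    rw [Finset.eventually_all]
    intro k _
    exact far_of_not_shadow (isClosed_K hp) (fun x hx y hy => K_add hp hx hy)
      (fun c hc x hx => K_smul hp hx hc) (K_zero hp) hns k
  obtain ⟨ε, h2, h3⟩ := (h1.and self_mem_nhdsWithin).exists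
  exact ⟨ε, h3, fun k hk => h2 k (Finset.mem_range.2 (by omega))⟩

end lsc

end Vale.Agent.N256
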