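import Vale.Agent.N256.Nuij
import Vale.Agent.P256.C5.Ind
import Vale.Agent.P256.H387.Factor

/-! P256: irreducible polynomials with pointed cones, raising the dimension and the degree. -/

namespace Vale.Agent.N256

open MvPolynomial Vale.Agent.P256

variable {n d : ℕ}

/-- Irreducible hyperbolic forms of degree `d` in `n` variables whose cone contains no line and is
not a shadow. -/
def Good (n d : ℕ) : Prop :=
  ∃ (p : MvPolynomial (Fin n) ℝ) (e : Fin n → ℝ), p.IsHomogeneous d ∧ IsHyperbolic p e ∧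
    Irreducible p ∧ (∀ x ∈ hypCone p e, -x ∈ hypCone p e → x = 0) ∧
    ¬ IsSpectrahedralShadow (hypCone p e)

/-- Reduction to irreducible polynomials with pointed cones. -/
theorem exists_good : ∀ (n : ℕ) (p : MvPolynomial (Fin n) ℝ) (e : Fin n → ℝ), IsHyperbolic p e →
    ¬ IsSpectrahedralShadow (hypCone p e) → ∃ k ≤ n, ∃ d, Good k d := by
  intro n
  induction n with
  | zero => exact fun p e hp h => absurd (shadow_of_le_two hp (by omega)).shadow h
  | succ n ih =>
    intro p e hp h
    by_contra hcon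
    apply h
    refine (H387.shad_of_irreducible hp fun q r _ hirr hq => ?_).shadow
    obtain ⟨d, hd⟩ := hq.1
    by_contra hns
    by_cases hpt : ∀ x ∈ hypCone q e, -x ∈ hypCone q e → x = 0
    · exact hcon ⟨n + 1, le_rfl, d, q, e, hd, hq, hirr, hpt, fun h1 => hns (GShad.of_shadow h1)⟩
    · push Not at hpt
      obtain ⟨v, hv, hv', hv0⟩ := hpt
      obtain ⟨A, q', -, hqh, hA⟩ := lineality_reduction hq hd hv0 (eval_add_of_lin hq hv hv')
      obtain ⟨k, hk, h2⟩ := ih q' (A e) hqh fun h1 => hns (by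
        rw [hypCone_comp A hA]
        exact (GShad.of_shadow h1).preimage A)
      exact hcon ⟨k, by omega, h2⟩

section up

variable {q : MvPolynomial (Fin n) ℝ} {e : Fin n → ℝ}

/-- The polynomial `q(x) + t D_e q(x)`. -/
noncomputable def up (q : MvPolynomial (Fin n) ℝ) (e : Fin n → ℝ) :
    MvPolynomial (Fin (n + 1)) ℝ :=
  rename Fin.succ q + X 0 * rename Fin.succ (dirD q e)

theorem eval_rename_succ (q : MvPolynomial (Fin n) ℝ) (y : Fin (n + 1) → ℝ) :
    eval y (rename Fin.succ q) = eval (Fin.tail y) q := by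
  rw [eval_rename]
  rfl

theorem eval_up (y : Fin (n + 1) → ℝ) :
    eval y (up q e) = eval (Fin.tail y) q + y 0 * eval (Fin.tail y) (dirD q e) := by
  rw [up, map_add, map_mul, eval_X, eval_rename_succ, eval_rename_succ]

theorem tail_line (y : Fin (n + 1) → ℝ) (t : ℝ) :
    Fin.tail (y + t • (Fin.cons 0 e : Fin (n + 1) → ℝ)) = Fin.tail y + t • e := by
  funext i
  simp [Fin.tail]

theorem line_up (y : Fin (n + 1) → ℝ) :
    line (up q e) y (Fin.cons 0 e) = step (y 0) (line q (Fin.tail y) e) := by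
  apply Polynomial.funext
  intro t
  rw [step, Polynomial.eval_add, Polynomial.eval_mul, Polynomial.eval_C, derivative_line,
    eval_line, eval_line, eval_line, eval_up, tail_line]
  simp

theorem homog_up (hd : q.IsHomogeneous d) (h1 : 1 ≤ d) : (up q e).IsHomogeneous d := by
  refine hd.rename_isHomogeneous.add ?_
  have h2 := (isHomogeneous_X ℝ (0 : Fin (n + 1))).mul
    ((homog_dirD hd e).rename_isHomogeneous (f := Fin.succ))
  rwa [show 1 + (d - 1) = d by omega] at h2

theorem hyp_up (hd : q.IsHomogeneous d) (h1 : 1 ≤ d) (hq : IsHyperbolic q e) :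
    IsHyperbolic (up q e) (Fin.cons 0 e) := by
  refine hyp_of_splits (homog_up hd h1) ?_ fun y => ?_
  · rw [eval_up]
    simpa using hq.2.1
  · rw [line_up]
    exact step_splits _ (hq.splits _)

/-- The embedding `x ↦ (0, x)`. -/
def emb (n : ℕ) : (Fin n → ℝ) →ₗ[ℝ] (Fin (n + 1) → ℝ) where
  toFun x := Fin.cons 0 x
  map_add' x y := by
    funext i
    refine Fin.cases ?_ (fun j => ?_) i <;> simp
  map_smul' c x := by
    funext i
    refine Fin.cases ?_ (fun j => ?_) i <;> simp

theorem cone_up : hypCone q e = emb n ⁻¹' hypCone (up q e) (Fin.cons 0 e) :=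
  hypCone_comp (emb n) fun x => by
    rw [eval_up]
    simp [emb]

theorem pointed_up (hd : q.IsHomogeneous d) (h2 : 2 ≤ d) (hq : IsHyperbolic q e)
    (hpt : ∀ x ∈ hypCone q e, -x ∈ hypCone q e → x = 0) (y : Fin (n + 1) → ℝ)
    (hy : y ∈ hypCone (up q e) (Fin.cons 0 e)) (hy' : -y ∈ hypCone (up q e) (Fin.cons 0 e)) :
    y = 0 := by
  have h1 := lin_line (homog_up hd (by omega)) (hyp_up hd (by omega) hq) hy hy'
  rw [line_up] at h1
  have h0 : y 0 = 0 := by
    by_contra h0
    have h3 : MultLE (d - 1 + 1) (line q (Fin.tail y) e) :=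
      multLE_of_natDegree (line_e_ne_zero hq _) (by have := (line_top hd (Fin.tail y) e).1; omega)
    have h4 := MultLE.step (hq.splits _) (by omega) h0 h3 0
    rw [show d - 1 + 1 = d by omega] at h4
    exact h4 h1
  have h3 : y = emb n (Fin.tail y) := by
    rw [← Fin.cons_self_tail y, h0]
    rfl
  have h4 : Fin.tail y = 0 := by
    refine hpt _ ?_ ?_
    · rw [cone_up, Set.mem_preimage, ← h3]
      exact hy
    · rw [cone_up, Set.mem_preimage, map_neg, ← h3]
      exact hy'
  rw [h3, h4, map_zero]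

theorem fse_rename (q : MvPolynomial (Fin n) ℝ) :
    finSuccEquiv ℝ n (rename Fin.succ q) = Polynomial.C q := by
  induction q using MvPolynomial.induction_on with
  | C a => simp [finSuccEquiv_apply]
  | add p q hp hq => simp only [map_add, hp, hq]
  | mul_X p i hp => simp only [map_mul, hp, rename_X, finSuccEquiv_X_succ]

theorem line_mul (a b : MvPolynomial (Fin n) ℝ) (x v : Fin n → ℝ) :
    line (a * b) x v = line a x v * line b x v := by
  simp only [line, map_mul]

theorem dirD_mul (a b : MvPolynomial (Fin n) ℝ) (v : Fin n → ℝ) :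
    dirD (a * b) v = dirD a v * b + a * dirD b v := by
  simp only [dirD, Derivation.leibniz, smul_eq_mul, mul_add, Finset.sum_add_distrib,
    Finset.sum_mul, Finset.mul_sum]
  rw [add_comm]
  congr 1
  · exact Finset.sum_congr rfl fun i _ => by ring
  · exact Finset.sum_congr rfl fun i _ => by ring

/-- A form which does not vanish at `e` and divides its derivative is a unit. -/
theorem unit_of_dvd {f : MvPolynomial (Fin n) ℝ} {k : ℕ} (hf : f.IsHomogeneous k)
    (he : eval e f ≠ 0) (h : f ∣ dirD f e) : IsUnit f := by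
  obtain ⟨g, hg⟩ := h
  have h1 := (line_leading hf 0 e he).1
  have h2 : line f 0 e ∣ Polynomial.derivative (line f 0 e) := by
    rw [derivative_line, hg, line_mul]
    exact Dvd.intro _ rfl
  have h3 : k = 0 := by
    by_contra hk
    have h4 : Polynomial.derivative (line f 0 e) ≠ 0 := by
      intro h5
      have h6 := Polynomial.derivative_eq_zero.1 h5
      omega
    have h5 := Polynomial.natDegree_le_of_dvd h2 h4
    have h6 := Polynomial.natDegree_derivative_lt (p := line f 0 e) (by omega)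
    omega
  subst h3
  have h4 := (totalDegree_zero_iff_isHomogeneous (Fin n)).2 hf
  rw [totalDegree_eq_zero_iff_eq_C] at h4
  rw [h4, eval_C] at he
  rw [h4]
  exact (IsUnit.mk0 _ he).map C

theorem relPrime_dirD (hd : q.IsHomogeneous d) (he : eval e q ≠ 0) (hs : Squarefree q) :
    IsRelPrime (dirD q e) q := by
  intro a ha1 ha2
  by_contra hu
  have hq0 : q ≠ 0 := hs.ne_zero
  have ha0 : a ≠ 0 := ne_zero_of_dvd_ne_zero hq0 ha2
  obtain ⟨f, hf, hfa⟩ := WfDvdMonoid.exists_irreducible_factor hu ha0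
  obtain ⟨g, hg⟩ := hfa.trans ha2
  have h1 : f ∣ dirD f e * g := by
    have h2 := hfa.trans ha1
    rw [hg, dirD_mul] at h2
    exact (dvd_add_left (Dvd.intro _ rfl)).1 h2
  rcases hf.prime.dvd_or_dvd h1 with h | h
  · obtain ⟨k, hk⟩ := H387.homog_of_mul (hg ▸ hd) (hg ▸ hq0)
    refine hf.not_isUnit (unit_of_dvd hk ?_ h)
    rw [hg, map_mul] at he
    exact left_ne_zero_of_mul he
  · refine hf.not_isUnit (hs f ?_)
    rw [hg]
    exact mul_dvd_mul_left f h

theorem irr_up (hd : q.IsHomogeneous d) (h1 : 1 ≤ d) (he : eval e q ≠ 0) (hs : Squarefree q) :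
    Irreducible (up q e) := by
  rw [← MulEquiv.irreducible_iff (finSuccEquiv ℝ n)]
  have h2 : finSuccEquiv ℝ n (up q e) =
      Polynomial.C (dirD q e) * Polynomial.X + Polynomial.C q := by
    rw [up, map_add, map_mul, fse_rename, fse_rename, finSuccEquiv_X_zero]
    ring
  rw [h2]
  refine Polynomial.irreducible_C_mul_X_add_C (fun h => ?_) (relPrime_dirD hd he hs)
  have h3 := dd_euler hd e
  rw [← eval_dirD, h, map_zero] at h3
  rcases mul_eq_zero.1 h3.symm with h4 | h4
  · have h5 : d = 0 := by exact_mod_cast h4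
    omega
  · exact he h4

/-- From a squarefree example to an irreducible one in one more variable. -/
theorem good_of_squarefree (hd : q.IsHomogeneous d) (hq : IsHyperbolic q e) (hs : Squarefree q)
    (hpt : ∀ x ∈ hypCone q e, -x ∈ hypCone q e → x = 0)
    (hns : ¬ IsSpectrahedralShadow (hypCone q e)) : Good (n + 1) d := by
  have h2 := two_le_deg hd hq hns
  refine ⟨up q e, Fin.cons 0 e, homog_up hd (by omega), hyp_up hd (by omega) hq,
    irr_up hd (by omega) hq.2.1.ne' hs, pointed_up hd h2 hq hpt, fun h => hns ?_⟩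
  rw [cone_up]
  exact ((GShad.of_shadow h).preimage _).shadow

theorem Good.succ (h : Good n d) : Good (n + 1) d := by
  obtain ⟨q, e, hd, hq, hirr, hpt, hns⟩ := h
  exact good_of_squarefree hd hq hirr.squarefree hpt hns

theorem Good.mono {k : ℕ} (h : Good k d) (hk : k ≤ n) : Good n d := by
  induction n, hk using Nat.le_induction with
  | base => exact h
  | succ n _ ih => exact ih.succ

end up

section deg

variable {q : MvPolynomial (Fin n) ℝ} {e : Fin n → ℝ}

theorem hyp_mul {a b : MvPolynomial (Fin n) ℝ} (ha : IsHyperbolic a e) (hb : IsHyperbolic b e) :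
    IsHyperbolic (a * b) e := by
  obtain ⟨⟨k, hk⟩, ha1, ha2⟩ := ha
  obtain ⟨⟨l, hl⟩, hb1, hb2⟩ := hb
  refine ⟨⟨k + l, hk.mul hl⟩, by rw [map_mul]; exact mul_pos ha1 hb1, fun x t ht => ?_⟩
  rw [map_mul] at ht
  rcases mul_eq_zero.1 ht with h | h
  · exact ha2 x t h
  · exact hb2 x t h

theorem tr_nonneg (hq : IsHyperbolic q e) {x : Fin n → ℝ} (hx : x ∈ hypCone q e) :
    0 ≤ dd q e x := by
  have h1 := deriv_nonneg_of_nonneg (f := line q e x - Polynomial.C (eval e q))
    (by rw [Polynomial.eval_sub, eval_line, Polynomial.eval_C, zero_smul, add_zero, sub_self])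
    (fun t ht => by
      rw [Polynomial.eval_sub, eval_line, Polynomial.eval_C, sub_nonneg]
      exact K_mono hq ((e_inOpen hq).mem hq) (K_smul hq hx ht.le))
  rwa [Polynomial.derivative_sub, Polynomial.derivative_C, sub_zero, eval_derivative_line,
    zero_smul, add_zero] at h1

theorem tr_pos (hd : q.IsHomogeneous d) (h1 : 1 ≤ d) (hq : IsHyperbolic q e) : 0 < dd q e e := by
  rw [dd_euler hd]
  exact mul_pos (by exact_mod_cast h1) hq.2.1

/-- The linear form `x ↦ D_x q (e)`. -/
noncomputable def trP (q : MvPolynomial (Fin n) ℝ) (e : Fin n → ℝ) : MvPolynomial (Fin n) ℝ :=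
  ∑ i, X i * C (eval e (pderiv i q))

theorem eval_trP (x : Fin n → ℝ) : eval x (trP q e) = dd q e x := by
  simp only [trP, dd, map_sum, map_mul, eval_X, eval_C]

theorem homog_trP : (trP q e).IsHomogeneous 1 := by
  refine IsHomogeneous.sum _ _ _ fun i _ => ?_
  simpa using (isHomogeneous_X ℝ i).mul (isHomogeneous_C (Fin n) (eval e (pderiv i q)))

/-- The linear forms `t + (i+1) tr(x)`. -/
noncomputable def ell (q : MvPolynomial (Fin n) ℝ) (e : Fin n → ℝ) (i : ℕ) :
    MvPolynomial (Fin (n + 1)) ℝ := X 0 + rename Fin.succ (C ((i : ℝ) + 1) * trP q e)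

theorem eval_ell (i : ℕ) (y : Fin (n + 1) → ℝ) :
    eval y (ell q e i) = y 0 + ((i : ℝ) + 1) * dd q e (Fin.tail y) := by
  rw [ell, map_add, eval_X, eval_rename_succ, map_mul, eval_C, eval_trP]

theorem homog_ell (i : ℕ) : (ell q e i).IsHomogeneous 1 := by
  refine (isHomogeneous_X ℝ 0).add (IsHomogeneous.rename_isHomogeneous ?_)
  simpa using (isHomogeneous_C (Fin n) ((i : ℝ) + 1)).mul (homog_trP (q := q) (e := e))

theorem irr_ell (i : ℕ) : Irreducible (ell q e i) := by
  rw [← MulEquiv.irreducible_iff (finSuccEquiv ℝ n)]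
  have h2 : finSuccEquiv ℝ n (ell q e i) =
      Polynomial.C 1 * Polynomial.X + Polynomial.C (C ((i : ℝ) + 1) * trP q e) := by
    rw [ell, map_add, fse_rename, finSuccEquiv_X_zero, map_one, one_mul]
  rw [h2]
  exact Polynomial.irreducible_C_mul_X_add_C one_ne_zero isRelPrime_one_left

theorem hyp_ell (hd : q.IsHomogeneous d) (h1 : 1 ≤ d) (hq : IsHyperbolic q e) (i : ℕ) :
    IsHyperbolic (ell q e i) (Fin.cons 0 e) := by
  refine hyp_of_splits (homog_ell i) ?_ fun y =>
    Polynomial.Splits.of_natDegree_le_one (line_top (homog_ell i) _ _).1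
  rw [eval_ell]
  have h2 := tr_pos hd h1 hq
  simp only [Fin.cons_zero, Fin.tail_cons, zero_add]
  positivity

/-- The product of `q` and `j` linear forms. -/
noncomputable def RR (q : MvPolynomial (Fin n) ℝ) (e : Fin n → ℝ) :
    ℕ → MvPolynomial (Fin (n + 1)) ℝ
  | 0 => rename Fin.succ q
  | j + 1 => RR q e j * ell q e j

theorem homog_RR (hd : q.IsHomogeneous d) (j : ℕ) : (RR q e j).IsHomogeneous (d + j) := by
  induction j with
  | zero => exact hd.rename_isHomogeneous
  | succ j ih => exact ih.mul (homog_ell j)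

theorem hyp_RR (hd : q.IsHomogeneous d) (h1 : 1 ≤ d) (hq : IsHyperbolic q e) (j : ℕ) :
    IsHyperbolic (RR q e j) (Fin.cons 0 e) := by
  induction j with
  | zero =>
    refine hyp_of_splits hd.rename_isHomogeneous ?_ fun y => ?_
    · rw [RR, eval_rename_succ]
      simpa using hq.2.1
    · have h2 : line (RR q e 0) y (Fin.cons 0 e) = line q (Fin.tail y) e := by
        apply Polynomial.funext
        intro t
        rw [eval_line, eval_line, RR, eval_rename_succ, tail_line]
      rw [h2]
      exact hq.splits _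
  | succ j ih => exact hyp_mul ih (hyp_ell hd h1 hq j)

theorem eval_RR_ne (hd : q.IsHomogeneous d) (h1 : 1 ≤ d) (hq : IsHyperbolic q e) (k j : ℕ)
    (hj : j ≤ k) : eval (Fin.cons (-(((k : ℝ) + 1) * dd q e e)) e : Fin (n + 1) → ℝ)
      (RR q e j) ≠ 0 := by
  induction j with
  | zero =>
    rw [RR, eval_rename_succ]
    simpa using hq.2.1.ne'
  | succ j ih =>
    rw [RR, map_mul, eval_ell]
    refine mul_ne_zero (ih (by omega)) ?_
    simp only [Fin.cons_zero, Fin.tail_cons]
    have h2 := tr_pos hd h1 hq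
    have h3 : (j : ℝ) + 1 ≤ k := by exact_mod_cast hj
    nlinarith

theorem sqf_RR (hd : q.IsHomogeneous d) (h1 : 1 ≤ d) (hq : IsHyperbolic q e)
    (hirr : Irreducible q) (j : ℕ) : Squarefree (RR q e j) := by
  induction j with
  | zero =>
    refine Irreducible.squarefree ?_
    rw [RR, ← MulEquiv.irreducible_iff (finSuccEquiv ℝ n), fse_rename]
    exact (Polynomial.prime_C_iff.2 hirr.prime).irreducible
  | succ j ih =>
    rw [RR, squarefree_mul_iff]
    refine ⟨((irr_ell j).isRelPrime_iff_not_dvd.2 ?_).symm, ih, (irr_ell j).squarefree⟩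
    rintro ⟨g, hg⟩
    apply eval_RR_ne hd h1 hq j j le_rfl
    rw [hg, map_mul, eval_ell]
    simp

theorem tail_sub (y : Fin (n + 1) → ℝ) (t : ℝ) :
    Fin.tail (t • (Fin.cons 0 e : Fin (n + 1) → ℝ) - y) = t • e - Fin.tail y := by
  funext i
  simp [Fin.tail]

theorem mem_ell (hd : q.IsHomogeneous d) (h1 : 1 ≤ d) (hq : IsHyperbolic q e) (i : ℕ)
    (y : Fin (n + 1) → ℝ) : y ∈ hypCone (ell q e i) (Fin.cons 0 e) ↔
      0 ≤ y 0 + ((i : ℝ) + 1) * dd q e (Fin.tail y) := by
  have h2 := tr_pos hd h1 hq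
  constructor
  · intro h
    have h3 := K_eval_nonneg (hyp_ell hd h1 hq i) h
    rwa [eval_ell] at h3
  · intro h t ht
    rw [eval_ell, tail_sub, dd_sub, dd_smul] at ht
    simp only [Pi.sub_apply, Pi.smul_apply, Fin.cons_zero, smul_zero, zero_sub] at ht
    by_contra hneg
    have h3 : t * dd q e e < 0 := mul_neg_of_neg_of_pos (not_le.1 hneg) h2
    have h4 : (0 : ℝ) < i + 1 := by positivity
    nlinarith

theorem mem_RR (hd : q.IsHomogeneous d) (h1 : 1 ≤ d) (hq : IsHyperbolic q e) (j : ℕ)
    (y : Fin (n + 1) → ℝ) : y ∈ hypCone (RR q e j) (Fin.cons 0 e) ↔ Fin.tail y ∈ hypCone q e ∧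
      ∀ i < j, 0 ≤ y 0 + ((i : ℝ) + 1) * dd q e (Fin.tail y) := by
  induction j with
  | zero =>
    simp only [hypCone, Set.mem_ofPred_eq, RR, eval_rename_succ, tail_sub]
    simp
  | succ j ih =>
    rw [RR, H387.hypCone_mul, Set.mem_inter_iff, ih, mem_ell hd h1 hq, and_assoc,
      Nat.forall_lt_succ_right]

theorem Good.deg (h : Good n d) (j : ℕ) : Good (n + 2) (d + j) := by
  rcases Nat.eq_zero_or_pos j with rfl | hj
  · exact h.succ.succ
  obtain ⟨q, e, hd, hq, hirr, hpt, hns⟩ := h
  have h1 : 1 ≤ d := by have := two_le_deg hd hq hns; omega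
  refine good_of_squarefree (homog_RR hd j) (hyp_RR hd h1 hq j) (sqf_RR hd h1 hq hirr j)
    (fun y hy hy' => ?_) fun h => hns ?_
  · rw [mem_RR hd h1 hq] at hy hy'
    have h2 : Fin.tail y = 0 := hpt _ hy.1 hy'.1
    have h3 := hy.2 0 hj
    have h4 := hy'.2 0 hj
    have h5 : Fin.tail (-y) = -Fin.tail y := rfl
    have h6 : dd q e 0 = 0 := by simp [dd]
    rw [h5, h2, neg_zero, h6, Pi.neg_apply] at h4
    rw [h2, h6] at h3
    rw [← Fin.cons_self_tail y, h2, show y 0 = 0 by linarith]
    exact (emb n).map_zero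
  · have h2 : hypCone q e = emb n ⁻¹' hypCone (RR q e j) (Fin.cons 0 e) := by
      ext x
      rw [Set.mem_preimage, mem_RR hd h1 hq]
      have h3 : Fin.tail (emb n x) = x := by simp [emb]
      have h4 : emb n x 0 = 0 := by simp [emb]
      rw [h3, h4]
      refine ⟨fun hx => ⟨hx, fun i _ => ?_⟩, fun hx => hx.1⟩
      have := tr_nonneg hq hx
      positivity
    rw [h2]
    exact ((GShad.of_shadow h).preimage _).shadow

end deg

section desc

variable {m : ℕ} {q : MvPolynomial (Fin n) ℝ} {e : Fin n → ℝ}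

theorem exists_comp (q : MvPolynomial (Fin n) ℝ) (σ : (Fin m → ℝ) →ₗ[ℝ] (Fin n → ℝ)) :
    ∃ q' : MvPolynomial (Fin m) ℝ, (∀ y, eval y q' = eval (σ y) q) ∧
      ∀ d, q.IsHomogeneous d → q'.IsHomogeneous d := by
  refine ⟨aeval (fun i => ∑ j, C (σ (Pi.single j 1) i) * X j) q, fun y => ?_, fun d hd => ?_⟩
  · rw [lr_eval_aeval]
    congr 2
    funext i
    have h2 : σ y = ∑ j, y j • σ (Pi.single j 1) := by
      conv_lhs => rw [show y = ∑ j, y j • (Pi.single j (1 : ℝ) : Fin m → ℝ) by
        ext i; simp [Finset.sum_apply, Pi.single_apply]]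
      rw [map_sum]
      exact Finset.sum_congr rfl fun i _ => map_smul σ _ _
    rw [h2]
    simp only [map_sum, map_mul, eval_C, eval_X, Finset.sum_apply, Pi.smul_apply, smul_eq_mul]
    exact Finset.sum_congr rfl fun i _ => mul_comm _ _
  · have := hd.aeval (fun i : Fin n => (∑ j, C (σ (Pi.single j 1) i) * X j :
        MvPolynomial (Fin m) ℝ)) (n := 1) (fun i => by
      refine IsHomogeneous.sum _ _ _ fun j _ => ?_
      have h1 := (isHomogeneous_C (Fin m) (σ (Pi.single j 1) i)).mul (isHomogeneous_X ℝ j)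
      simpa using h1)
    simpa using this

/-- A counterexample which depends only on `B x` gives a counterexample in the target of `B`. -/
theorem descend (hq : IsHyperbolic q e) (hns : ¬ IsSpectrahedralShadow (hypCone q e))
    (B : (Fin n → ℝ) →ₗ[ℝ] (Fin m → ℝ)) (hB : ∀ x y, B x = B y → eval x q = eval y q) :
    ∃ q' : MvPolynomial (Fin m) ℝ, IsHyperbolic q' (B e) ∧
      ¬ IsSpectrahedralShadow (hypCone q' (B e)) := by
  obtain ⟨σ, hσ⟩ : ∃ σ : (Fin m → ℝ) →ₗ[ℝ] (Fin n → ℝ), ∀ x, B (σ (B x)) = B x := by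
    obtain ⟨g, hg⟩ := B.rangeRestrict.exists_rightInverse_of_surjective B.range_rangeRestrict
    obtain ⟨π, hπ⟩ := (LinearMap.range B).subtype.exists_leftInverse_of_injective
      (LinearMap.range B).ker_subtype
    refine ⟨g.comp π, fun x => ?_⟩
    have h1 : π (B x) = B.rangeRestrict x := by
      have := LinearMap.congr_fun hπ (B.rangeRestrict x)
      simpa using this
    have h2 := LinearMap.congr_fun hg (B.rangeRestrict x)
    simp only [LinearMap.comp_apply, LinearMap.id_apply] at h2 ⊢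
    rw [h1]
    have h3 := congrArg Subtype.val h2
    simpa using h3
  obtain ⟨q', h1, h3⟩ := exists_comp q σ
  have key : ∀ x, eval x q = eval (B x) q' := fun x => by
    rw [h1]
    exact hB _ _ (hσ x).symm
  obtain ⟨d, hd⟩ := hq.1
  refine ⟨q', hyp_of_splits (h3 d hd) (key e ▸ hq.2.1) fun y => ?_, fun h => hns ?_⟩
  · have h2 : line q' y (B e) = line q (σ y) e := by
      apply Polynomial.funext
      intro t
      rw [eval_line, eval_line, h1]
      refine hB _ _ ?_
      simp only [map_add, map_smul, hσ]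
    rw [h2]
    exact hq.splits _
  · rw [hypCone_comp B key]
    exact ((GShad.of_shadow h).preimage B).shadow

end desc

end Vale.Agent.N256
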